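import Mathlib

/-!
Small-ball estimate for the standard Gaussian law: conditionally on the orthogonal projection to a
subspace `V`, the inner product with `s` has a Gaussian density bounded by
`1 / (√(2π) * dist(s, V))`.
-/

open MeasureTheory ProbabilityTheory Set
open scoped ENNReal RealInnerProductSpace NNReal

namespace Crest.Agent.R322

/-- the Gaussian measure of an interval of radius `ρ`. -/
lemma gaussianReal_ball_le (m : ℝ) (v : ℝ≥0) (hv : v ≠ 0) (c ρ : ℝ) :
    gaussianReal m v {t | |t - c| < ρ} ≤ ENNReal.ofReal (2 * ρ / √(2 * Real.pi * v)) := by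
  have hset : {t : ℝ | |t - c| < ρ} = Metric.ball c ρ := by
    ext t; simp [Real.dist_eq]
  rw [gaussianReal_apply m hv, hset]
  calc ∫⁻ x in Metric.ball c ρ, gaussianPDF m v x
      ≤ ∫⁻ _ in Metric.ball c ρ, ENNReal.ofReal ((√(2 * Real.pi * v))⁻¹) := by
        refine lintegral_mono fun x => ?_
        rw [gaussianPDF]
        refine ENNReal.ofReal_le_ofReal ?_
        rw [gaussianPDFReal]
        have h0 : 0 ≤ (√(2 * Real.pi * v))⁻¹ := by positivity
        have h1 : Real.exp (-(x - m) ^ 2 / (2 * v)) ≤ 1 := by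
          rw [Real.exp_le_one_iff]
          have : 0 ≤ (x - m) ^ 2 / (2 * (v : ℝ)) := by positivity
          have h2 : -(x - m) ^ 2 / (2 * (v : ℝ)) = -((x - m) ^ 2 / (2 * (v : ℝ))) := by ring
          rw [h2]; linarith
        calc (√(2 * Real.pi * v))⁻¹ * Real.exp (-(x - m) ^ 2 / (2 * v))
            ≤ (√(2 * Real.pi * v))⁻¹ * 1 := mul_le_mul_of_nonneg_left h1 h0
          _ = _ := mul_one _
    _ = ENNReal.ofReal ((√(2 * Real.pi * v))⁻¹) * volume (Metric.ball c ρ) := by
        rw [setLIntegral_const]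
    _ = ENNReal.ofReal ((√(2 * Real.pi * v))⁻¹) * ENNReal.ofReal (2 * ρ) := by
        rw [Real.volume_ball]
    _ = ENNReal.ofReal (2 * ρ / √(2 * Real.pi * v)) := by
        rw [← ENNReal.ofReal_mul (by positivity)]
        congr 1
        rw [div_eq_mul_inv, mul_comm]

section

variable {E : Type*} [NormedAddCommGroup E] [InnerProductSpace ℝ E] [FiniteDimensional ℝ E]
  [MeasurableSpace E] [BorelSpace E]

lemma map_inner_stdGaussian (w : E) :
    (stdGaussian E).map (fun x => ⟪w, x⟫) = gaussianReal 0 (‖w‖₊ ^ 2) := by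
  have h := IsGaussian.map_eq_gaussianReal (μ := stdGaussian E) (innerSL ℝ w)
  have h1 : (fun x : E => ⟪w, x⟫) = ⇑(innerSL ℝ w) := by ext x; simp
  rw [h1, h]
  congr 1
  · exact integral_strongDual_stdGaussian _
  · rw [variance_dual_stdGaussian, innerSL_apply_norm]
    ext
    simp

/-- Independence of the orthogonal projection to `V` and of the inner product with a vector
orthogonal to `V`. -/
lemma indepFun_starProjection_inner (V : Submodule ℝ E) (w : E) (hw : w ∈ Vᗮ) :
    IndepFun (fun x : E => V.starProjection x) (fun x : E => ⟪w, x⟫) (stdGaussian E) := by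
  have : CompleteSpace E := FiniteDimensional.complete ℝ E
  refine HasGaussianLaw.indepFun_of_covariance_inner ?_ ?_
  · have h := (IsGaussian.hasGaussianLaw_id (μ := stdGaussian E)).map_fun
      ((V.starProjection).prod (innerSL ℝ w))
    simpa using h
  · intro x y
    have h1 : (fun ω : E => inner ℝ x (V.starProjection ω)) = fun ω => ⟪V.starProjection x, ω⟫ := by
      ext ω
      exact (V.inner_starProjection_left_eq_right x ω).symm
    have h2 : (fun ω : E => inner ℝ y (⟪w, ω⟫ : ℝ)) = fun ω => ⟪y • w, ω⟫ := by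
      ext ω
      rw [inner_smul_left]
      simp [mul_comm]
    rw [h1, h2, ← covarianceBilin_apply_eq_cov IsGaussian.memLp_two_id,
      covarianceBilin_stdGaussian]
    rw [innerSL_apply_apply, inner_smul_right]
    have h3 : ⟪V.starProjection x, w⟫ = 0 :=
      Submodule.inner_right_of_mem_orthogonal (Submodule.starProjection_apply_mem V x) hw
    rw [h3, mul_zero]

/-- **Small ball lemma.** If `A` only depends on the projection to `V`, then the Gaussian measure
of `A ∩ {|⟪x, s⟫ - y| < ρ}` is at most `2ρ/√(2π) / ‖P_{Vᗮ} s‖` times the measure of `A`. -/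
theorem smallBall_general (V : Submodule ℝ E) (A : Set E) (hA : MeasurableSet A)
    (hAV : ∀ x, V.starProjection x ∈ A ↔ x ∈ A) (s : E) (y ρ : ℝ) :
    stdGaussian E ({x | |⟪x, s⟫ - y| < ρ} ∩ A) ≤
      ENNReal.ofReal (2 * ρ / √(2 * Real.pi)) *
        (ENNReal.ofReal ‖Vᗮ.starProjection s‖)⁻¹ * stdGaussian E A := by
  by_cases hρ : ρ ≤ 0
  · have : {x : E | |⟪x, s⟫ - y| < ρ} = ∅ := by
      ext x
      simp only [mem_ofPred_eq, mem_empty_iff_false, iff_false, not_lt]
      exact hρ.trans (abs_nonneg _)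
    rw [this]
    simp
  push Not at hρ
  set w := Vᗮ.starProjection s with hw
  set p := V.starProjection s with hp
  have hwV : w ∈ Vᗮ := Submodule.starProjection_apply_mem _ _
  have hsum : s = p + w := by
    rw [hp, hw]
    exact (V.starProjection_add_starProjection_orthogonal s).symm
  by_cases hw0 : w = 0
  · by_cases hA0 : stdGaussian E A = 0
    · rw [hA0, mul_zero]
      exact le_of_eq (measure_mono_null inter_subset_right hA0)
    · have h1 : (ENNReal.ofReal ‖w‖)⁻¹ = ⊤ := by simp [hw0]
      have h2 : ENNReal.ofReal (2 * ρ / √(2 * Real.pi)) ≠ 0 := by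
        rw [Ne, ENNReal.ofReal_eq_zero, not_le]
        positivity
      rw [h1, ENNReal.mul_top h2, ENNReal.top_mul hA0]
      exact le_top
  have hwn : 0 < ‖w‖ := norm_pos_iff.mpr hw0
  have hind := indepFun_starProjection_inner V w hwV
  have hX : Measurable (fun x : E => V.starProjection x) := V.starProjection.continuous.measurable
  have hY : Measurable (fun x : E => ⟪w, x⟫) := by fun_prop
  rw [indepFun_iff_map_prod_eq_prod_map_map hX.aemeasurable hY.aemeasurable] at hind
  set S : Set (E × ℝ) := {q | |q.2 - (y - ⟪q.1, p⟫)| < ρ} ∩ (Prod.fst ⁻¹' A) with hS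
  have hSm : MeasurableSet S := by
    refine MeasurableSet.inter ?_ (measurable_fst hA)
    exact measurableSet_lt (by fun_prop) measurable_const
  have hpre : ({x | |⟪x, s⟫ - y| < ρ} ∩ A) =
      (fun x : E => (V.starProjection x, ⟪w, x⟫)) ⁻¹' S := by
    ext x
    simp only [mem_inter_iff, mem_ofPred_eq, mem_preimage, hS, hAV]
    have h1 : ⟪x, s⟫ - y = ⟪w, x⟫ - (y - ⟪V.starProjection x, p⟫) := by
      have h2 : ⟪x, p⟫ = ⟪V.starProjection x, p⟫ := by
        rw [hp, ← V.inner_starProjection_left_eq_right, ← V.inner_starProjection_left_eq_right]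
        rw [Submodule.starProjection_eq_self_iff.mpr (Submodule.starProjection_apply_mem V x)]
      rw [hsum, inner_add_right, h2, real_inner_comm w x]
      ring
    rw [h1]
  rw [hpre, ← Measure.map_apply (hX.prodMk hY) hSm, hind, Measure.prod_apply hSm]
  have hbound : ∀ a : E, ((stdGaussian E).map (fun x : E => ⟪w, x⟫)) (Prod.mk a ⁻¹' S) ≤
      A.indicator (fun _ => ENNReal.ofReal (2 * ρ / √(2 * Real.pi)) *
        (ENNReal.ofReal ‖w‖)⁻¹) a := by
    intro a
    by_cases haA : a ∈ A
    · rw [indicator_of_mem haA]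
      have : Prod.mk a ⁻¹' S = {t : ℝ | |t - (y - ⟪a, p⟫)| < ρ} := by
        ext t
        simp [hS, haA]
      rw [this, map_inner_stdGaussian]
      refine (gaussianReal_ball_le 0 _ (by simpa using hw0) _ _).trans ?_
      rw [← ENNReal.ofReal_inv_of_pos hwn, ← ENNReal.ofReal_mul (by positivity)]
      refine ENNReal.ofReal_le_ofReal (le_of_eq ?_)
      have : √(2 * Real.pi * ((‖w‖₊ ^ 2 : ℝ≥0) : ℝ)) = √(2 * Real.pi) * ‖w‖ := by
        rw [Real.sqrt_mul (by positivity)]
        congr 1
        push_cast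
        rw [Real.sqrt_sq hwn.le]
      rw [this]
      field_simp
    · rw [indicator_of_notMem haA]
      have : Prod.mk a ⁻¹' S = ∅ := by
        ext t
        simp [hS, haA]
      rw [this]
      simp
  refine (lintegral_mono hbound).trans ?_
  rw [lintegral_indicator hA, setLIntegral_const, Measure.map_apply hX hA]
  refine mul_le_mul_right ?_ _
  refine measure_mono ?_
  intro x hx
  exact (hAV x).mp hx

/-- The small ball lemma for finite lists of constraints. -/
theorem smallBall (l : List E) (s : E) (y : ℝ) (ρ : ℝ) :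
    stdGaussian E {x | |⟪x, s⟫ - y| < ρ ∧ ∀ u ∈ l, |⟪x, u⟫ - y| < ρ} ≤
      ENNReal.ofReal (2 * ρ / √(2 * Real.pi)) *
        (ENNReal.ofReal ‖(Submodule.span ℝ {u | u ∈ l})ᗮ.starProjection s‖)⁻¹ *
        stdGaussian E {x | ∀ u ∈ l, |⟪x, u⟫ - y| < ρ} := by
  refine smallBall_general (Submodule.span ℝ {u | u ∈ l})
    {x | ∀ u ∈ l, |⟪x, u⟫ - y| < ρ} ?_ ?_ s y ρ
  · have : {x : E | ∀ u ∈ l, |⟪x, u⟫ - y| < ρ} = ⋂ u ∈ {u | u ∈ l}, {x | |⟪x, u⟫ - y| < ρ} := by
      ext x; simp
    rw [this]
    refine MeasurableSet.biInter (List.finite_toSet l).countable fun u _ => ?_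
    exact measurableSet_lt (by fun_prop) measurable_const
  · intro x
    simp only [mem_ofPred_eq]
    refine forall₂_congr fun u hu => ?_
    have hu' : u ∈ Submodule.span ℝ {u | u ∈ l} := Submodule.subset_span hu
    have : ⟪(Submodule.span ℝ {u | u ∈ l}).starProjection x, u⟫ = ⟪x, u⟫ := by
      rw [Submodule.inner_starProjection_left_eq_right,
        Submodule.starProjection_eq_self_iff.mpr hu']
    rw [this]

end

end Crest.Agent.R322
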