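import Mathlib
import Crest.Agent.R322.SmallBall

/-!
Moment bound for the law of `X s` (`X` a block of `k` Gaussian rows, `s` distributed according to a
finite measure `μ` with a negative-power energy bound for the distance to small subspaces).
-/

open MeasureTheory ProbabilityTheory Set
open scoped ENNReal RealInnerProductSpace NNReal

namespace Crest.Agent.R322

section

variable {E : Type*} [NormedAddCommGroup E] [InnerProductSpace ℝ E] [FiniteDimensional ℝ E]
  [MeasurableSpace E] [BorelSpace E]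

/-- block version of the small ball lemma -/
theorem smallBall_block (k : ℕ) (l : List E) (s : E) (y : Fin k → ℝ) (ρ : ℝ) :
    (Measure.pi fun _ : Fin k => stdGaussian E)
        {X | ∀ i, ∀ u ∈ s :: l, |⟪X i, u⟫ - y i| < ρ} ≤
      (ENNReal.ofReal (2 * ρ / √(2 * Real.pi)) *
        (ENNReal.ofReal ‖(Submodule.span ℝ {u | u ∈ l})ᗮ.starProjection s‖)⁻¹) ^ k *
      (Measure.pi fun _ : Fin k => stdGaussian E) {X | ∀ i, ∀ u ∈ l, |⟪X i, u⟫ - y i| < ρ} := by
  have h1 : {X : Fin k → E | ∀ i, ∀ u ∈ s :: l, |⟪X i, u⟫ - y i| < ρ} =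
      univ.pi fun i => {x : E | |⟪x, s⟫ - y i| < ρ ∧ ∀ u ∈ l, |⟪x, u⟫ - y i| < ρ} := by
    ext X; simp
  have h2 : {X : Fin k → E | ∀ i, ∀ u ∈ l, |⟪X i, u⟫ - y i| < ρ} =
      univ.pi fun i => {x : E | ∀ u ∈ l, |⟪x, u⟫ - y i| < ρ} := by
    ext X; simp
  rw [h1, h2, Measure.pi_pi, Measure.pi_pi]
  calc ∏ i : Fin k, stdGaussian E {x : E | |⟪x, s⟫ - y i| < ρ ∧ ∀ u ∈ l, |⟪x, u⟫ - y i| < ρ}
      ≤ ∏ i : Fin k, (ENNReal.ofReal (2 * ρ / √(2 * Real.pi)) *
        (ENNReal.ofReal ‖(Submodule.span ℝ {u | u ∈ l})ᗮ.starProjection s‖)⁻¹ *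
        stdGaussian E {x : E | ∀ u ∈ l, |⟪x, u⟫ - y i| < ρ}) :=
        Finset.prod_le_prod' fun i _ => smallBall l s (y i) ρ
    _ = _ := by
        rw [Finset.prod_mul_distrib, Finset.prod_const, Finset.card_univ, Fintype.card_fin]

lemma measurableSet_obs {k : ℕ} (y : Fin k → ℝ) (ρ : ℝ) :
    MeasurableSet {q : (Fin k → E) × E | ∀ i, |⟪q.1 i, q.2⟫ - y i| < ρ} := by
  have : {q : (Fin k → E) × E | ∀ i, |⟪q.1 i, q.2⟫ - y i| < ρ} =
      ⋂ i, {q : (Fin k → E) × E | |⟪q.1 i, q.2⟫ - y i| < ρ} := by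
    ext q; simp
  rw [this]
  refine MeasurableSet.iInter fun i => measurableSet_lt ?_ measurable_const
  fun_prop

lemma measurable_measure_obs {k : ℕ} (μ : Measure E) [SFinite μ] (y : Fin k → ℝ) (ρ : ℝ) :
    Measurable fun X : Fin k → E => μ {s | ∀ i, |⟪X i, s⟫ - y i| < ρ} :=
  measurable_measure_prodMk_left (measurableSet_obs y ρ)

lemma measurableSet_list {k : ℕ} (l : List E) (y : Fin k → ℝ) (ρ : ℝ) :
    MeasurableSet {X : Fin k → E | ∀ i, ∀ u ∈ l, |⟪X i, u⟫ - y i| < ρ} := by
  have : {X : Fin k → E | ∀ i, ∀ u ∈ l, |⟪X i, u⟫ - y i| < ρ} =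
      ⋂ i, ⋂ u ∈ {u | u ∈ l}, {X : Fin k → E | |⟪X i, u⟫ - y i| < ρ} := by
    ext q; simp
  rw [this]
  refine MeasurableSet.iInter fun i => ?_
  refine MeasurableSet.biInter (List.finite_toSet l).countable fun u _ => ?_
  exact measurableSet_lt (by fun_prop) measurable_const

/-- **Moment lemma**, inductive form. -/
theorem moments_aux {k : ℕ} (μ : Measure E) [SFinite μ] (K : ℕ) (D : ℝ≥0∞)
    (hD : ∀ V : Submodule ℝ E, Module.finrank ℝ V < K →
      ∫⁻ s, ((ENNReal.ofReal ‖Vᗮ.starProjection s‖)⁻¹) ^ k ∂μ ≤ D)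
    (y : Fin k → ℝ) (ρ : ℝ) (n : ℕ) :
    ∀ l : List E, l.length + n ≤ K →
      ∫⁻ X : Fin k → E, {X : Fin k → E | ∀ i, ∀ u ∈ l, |⟪X i, u⟫ - y i| < ρ}.indicator
        (fun X => (μ {s | ∀ i, |⟪X i, s⟫ - y i| < ρ}) ^ n) X
        ∂(Measure.pi fun _ : Fin k => stdGaussian E) ≤
      ((ENNReal.ofReal (2 * ρ / √(2 * Real.pi))) ^ k * D) ^ n *
        (Measure.pi fun _ : Fin k => stdGaussian E)
          {X | ∀ i, ∀ u ∈ l, |⟪X i, u⟫ - y i| < ρ} := by
  induction n with
  | zero =>
    intro l _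
    simp only [pow_zero, one_mul]
    rw [lintegral_indicator (measurableSet_list l y ρ)]
    simp
  | succ n ih =>
    intro l hl
    set P : Measure (Fin k → E) := Measure.pi fun _ : Fin k => stdGaussian E with hP
    set c : ℝ≥0∞ := ENNReal.ofReal (2 * ρ / √(2 * Real.pi)) with hc
    set ν : (Fin k → E) → ℝ≥0∞ := fun X => μ {s | ∀ i, |⟪X i, s⟫ - y i| < ρ} with hν
    set S : Set ((Fin k → E) × E) := {q | ∀ i, |⟪q.1 i, q.2⟫ - y i| < ρ} with hS
    have hSm : MeasurableSet S := measurableSet_obs y ρ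
    have hνm : Measurable ν := measurable_measure_obs μ y ρ
    set Al : Set (Fin k → E) := {X | ∀ i, ∀ u ∈ l, |⟪X i, u⟫ - y i| < ρ} with hAl
    have hAlm : MeasurableSet Al := measurableSet_list l y ρ
    -- rewrite the integrand
    have h1 : ∀ X : Fin k → E, Al.indicator (fun X => ν X ^ (n + 1)) X =
        ∫⁻ s, S.indicator (fun q => Al.indicator (fun X => ν X ^ n) q.1) (X, s) ∂μ := by
      intro X
      have h2 : ∀ s, S.indicator (fun q => Al.indicator (fun X => ν X ^ n) q.1) (X, s) =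
          {s | ∀ i, |⟪X i, s⟫ - y i| < ρ}.indicator
            (fun _ => Al.indicator (fun X => ν X ^ n) X) s := by
        intro s
        by_cases hs : (X, s) ∈ S
        · have hs' : s ∈ {s | ∀ i, |⟪X i, s⟫ - y i| < ρ} := hs
          rw [indicator_of_mem hs, indicator_of_mem hs']
        · have hs' : s ∉ {s | ∀ i, |⟪X i, s⟫ - y i| < ρ} := hs
          rw [indicator_of_notMem hs, indicator_of_notMem hs']
      have h20 : MeasurableSet {s : E | ∀ i, |⟪X i, s⟫ - y i| < ρ} := measurable_prodMk_left hSm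
      rw [lintegral_congr h2, lintegral_indicator h20, setLIntegral_const]
      by_cases hX : X ∈ Al
      · rw [indicator_of_mem hX, indicator_of_mem hX, pow_succ]
      · rw [indicator_of_notMem hX, indicator_of_notMem hX, zero_mul]
    rw [lintegral_congr h1]
    have hmeas : Measurable (fun q : (Fin k → E) × E =>
        S.indicator (fun q => Al.indicator (fun X => ν X ^ n) q.1) q) := by
      refine Measurable.indicator ?_ hSm
      exact ((hνm.pow_const n).indicator hAlm).comp measurable_fst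
    rw [lintegral_lintegral_swap hmeas.aemeasurable]
    -- bound the inner integral
    have h3 : ∀ s : E, ∫⁻ X, S.indicator (fun q => Al.indicator (fun X => ν X ^ n) q.1) (X, s) ∂P ≤
        (c ^ k * D) ^ n * (c ^ k * ((ENNReal.ofReal
          ‖(Submodule.span ℝ {u | u ∈ l})ᗮ.starProjection s‖)⁻¹) ^ k * P Al) := by
      intro s
      have h4 : ∀ X, S.indicator (fun q => Al.indicator (fun X => ν X ^ n) q.1) (X, s) =
          {X : Fin k → E | ∀ i, ∀ u ∈ s :: l, |⟪X i, u⟫ - y i| < ρ}.indicator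
            (fun X => ν X ^ n) X := by
        intro X
        by_cases hX : X ∈ {X : Fin k → E | ∀ i, ∀ u ∈ s :: l, |⟪X i, u⟫ - y i| < ρ}
        · rw [indicator_of_mem hX]
          have ha : (X, s) ∈ S := fun i => hX i s (by simp)
          have hb : X ∈ Al := fun i u hu => hX i u (by simp [hu])
          rw [indicator_of_mem ha, indicator_of_mem hb]
        · rw [indicator_of_notMem hX]
          by_cases ha : (X, s) ∈ S
          · rw [indicator_of_mem ha]
            have hb : X ∉ Al := by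
              intro hb
              apply hX
              intro i u hu
              rcases List.mem_cons.mp hu with rfl | hu
              · exact ha i
              · exact hb i u hu
            rw [indicator_of_notMem hb]
          · rw [indicator_of_notMem ha]
      rw [lintegral_congr h4]
      refine (ih (s :: l) (by simp only [List.length_cons]; omega)).trans ?_
      refine mul_le_mul_right ?_ _
      refine (smallBall_block k l s y ρ).trans ?_
      rw [mul_pow]
    refine (lintegral_mono h3).trans ?_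
    have hfr : Module.finrank ℝ (Submodule.span ℝ {u | u ∈ l}) < K := by
      classical
      have h5 : {u | u ∈ l} = ((l.toFinset : Finset E) : Set E) := by ext u; simp
      have h6 : Module.finrank ℝ (Submodule.span ℝ ((l.toFinset : Finset E) : Set E)) ≤
          l.toFinset.card := finrank_span_finset_le_card _
      rw [h5]
      have h7 := List.toFinset_card_le l
      omega
    have hperp : Measurable fun s : E => ((ENNReal.ofReal
        ‖(Submodule.span ℝ {u | u ∈ l})ᗮ.starProjection s‖)⁻¹) ^ k := by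
      fun_prop
    calc ∫⁻ s, (c ^ k * D) ^ n * (c ^ k * ((ENNReal.ofReal
          ‖(Submodule.span ℝ {u | u ∈ l})ᗮ.starProjection s‖)⁻¹) ^ k * P Al) ∂μ
        = (c ^ k * D) ^ n * (c ^ k * (∫⁻ s, ((ENNReal.ofReal
          ‖(Submodule.span ℝ {u | u ∈ l})ᗮ.starProjection s‖)⁻¹) ^ k ∂μ) * P Al) := by
          rw [lintegral_const_mul _ (by fun_prop), lintegral_mul_const _ (by fun_prop),
            lintegral_const_mul _ hperp]
      _ ≤ (c ^ k * D) ^ n * (c ^ k * D * P Al) := by
          gcongr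
          exact hD _ hfr
      _ = (c ^ k * D) ^ (n + 1) * P Al := by
          rw [pow_succ]; ring

/-- **Moment lemma**. -/
theorem moments {k : ℕ} (μ : Measure E) [SFinite μ] (K : ℕ) (D : ℝ≥0∞)
    (hD : ∀ V : Submodule ℝ E, Module.finrank ℝ V < K →
      ∫⁻ s, ((ENNReal.ofReal ‖Vᗮ.starProjection s‖)⁻¹) ^ k ∂μ ≤ D)
    (y : Fin k → ℝ) (ρ : ℝ) :
    ∫⁻ X : Fin k → E, (μ {s | ∀ i, |⟪X i, s⟫ - y i| < ρ}) ^ K
        ∂(Measure.pi fun _ : Fin k => stdGaussian E) ≤
      ((ENNReal.ofReal (2 * ρ / √(2 * Real.pi))) ^ k * D) ^ K := by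
  have h := moments_aux μ K D hD y ρ K [] (by simp)
  have h1 : {X : Fin k → E | ∀ i, ∀ u ∈ ([] : List E), |⟪X i, u⟫ - y i| < ρ} = univ := by
    ext X; simp
  rw [h1] at h
  simpa using h

end

end Crest.Agent.R322
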