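import Mathlib

/-!
Regularity lemma: a finite measure on `ℝ^k` whose smoothed densities have bounded `q`-th moments
on an open set `B` gives small mass to sets of small volume.
-/

open MeasureTheory Set Filter Topology
open scoped ENNReal NNReal

namespace Crest.Agent.R322

lemma cube_eq_ball {k : ℕ} (y : Fin k → ℝ) {ρ : ℝ} (hρ : 0 < ρ) :
    {z : Fin k → ℝ | ∀ i, |z i - y i| < ρ} = Metric.ball y ρ := by
  ext z
  rw [Metric.mem_ball, dist_pi_lt_iff hρ]
  simp [Real.dist_eq]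

lemma measurableSet_cube {k : ℕ} (ρ : ℝ) :
    MeasurableSet {p : (Fin k → ℝ) × (Fin k → ℝ) | ∀ i, |p.2 i - p.1 i| < ρ} := by
  have : {p : (Fin k → ℝ) × (Fin k → ℝ) | ∀ i, |p.2 i - p.1 i| < ρ} =
      ⋂ i, {p : (Fin k → ℝ) × (Fin k → ℝ) | |p.2 i - p.1 i| < ρ} := by
    ext q; simp
  rw [this]
  refine MeasurableSet.iInter fun i => measurableSet_lt ?_ measurable_const
  fun_prop

/-- Averaging: the mass of `C` is at most the integral over the `ρ`-neighbourhood of the
smoothed density. -/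
lemma measure_le_lintegral_cube {k : ℕ} (ν : Measure (Fin k → ℝ)) [IsFiniteMeasure ν]
    {C U : Set (Fin k → ℝ)} (hC : MeasurableSet C) {ρ : ℝ} (hρ : 0 < ρ)
    (hCU : Metric.thickening ρ C ⊆ U) (hU : MeasurableSet U) :
    ν C ≤ ∫⁻ y in U, (ENNReal.ofReal (2 * ρ))⁻¹ ^ k * ν {z | ∀ i, |z i - y i| < ρ} := by
  have hvol : ∀ z : Fin k → ℝ, volume {y : Fin k → ℝ | ∀ i, |z i - y i| < ρ} =
      (ENNReal.ofReal (2 * ρ)) ^ k := by
    intro z
    have h1 : {y : Fin k → ℝ | ∀ i, |z i - y i| < ρ} = {y | ∀ i, |y i - z i| < ρ} := by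
      ext y; simp only [mem_ofPred_eq]
      exact forall_congr' fun i => by rw [abs_sub_comm]
    rw [h1, cube_eq_ball z hρ, Real.volume_pi_ball _ hρ, Fintype.card_fin,
      ENNReal.ofReal_pow (by positivity)]
  have hc0 : (ENNReal.ofReal (2 * ρ)) ^ k ≠ 0 := by
    apply pow_ne_zero
    rw [Ne, ENNReal.ofReal_eq_zero, not_le]
    positivity
  have hct : (ENNReal.ofReal (2 * ρ)) ^ k ≠ ⊤ := ENNReal.pow_ne_top ENNReal.ofReal_ne_top
  rw [lintegral_const_mul]
  swap
  · exact (measurable_measure_prodMk_left (measurableSet_cube ρ))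
  rw [← ENNReal.inv_pow, mul_comm, ← div_eq_mul_inv, ENNReal.le_div_iff_mul_le (Or.inl hc0)
    (Or.inl hct)]
  -- Tonelli
  have h2 : ν C * (ENNReal.ofReal (2 * ρ)) ^ k =
      ∫⁻ z in C, volume {y : Fin k → ℝ | ∀ i, |z i - y i| < ρ} ∂ν := by
    rw [lintegral_congr hvol, setLIntegral_const, mul_comm]
  have hS : MeasurableSet {p : (Fin k → ℝ) × (Fin k → ℝ) | ∀ i, |p.1 i - p.2 i| < ρ} := by
    have h := measurableSet_cube (k := k) ρ
    have h3 : {p : (Fin k → ℝ) × (Fin k → ℝ) | ∀ i, |p.1 i - p.2 i| < ρ} =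
        {p : (Fin k → ℝ) × (Fin k → ℝ) | ∀ i, |p.2 i - p.1 i| < ρ} := by
      ext p; simp only [mem_ofPred_eq]
      exact forall_congr' fun i => by rw [abs_sub_comm]
    rw [h3]; exact h
  have h4 : ∫⁻ z in C, volume {y : Fin k → ℝ | ∀ i, |z i - y i| < ρ} ∂ν =
      ∫⁻ y : Fin k → ℝ, (ν.restrict C) {z : Fin k → ℝ | ∀ i, |z i - y i| < ρ} := by
    have h5 := Measure.prod_apply (μ := ν.restrict C) (ν := (volume : Measure (Fin k → ℝ))) hS
    have h6 := Measure.prod_apply_symm (μ := ν.restrict C)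
      (ν := (volume : Measure (Fin k → ℝ))) hS
    rw [h5] at h6
    exact h6
  rw [h2, h4]
  have h7 : ∀ y : Fin k → ℝ, (ν.restrict C) {z : Fin k → ℝ | ∀ i, |z i - y i| < ρ} ≤
      U.indicator (fun y => ν {z | ∀ i, |z i - y i| < ρ}) y := by
    intro y
    by_cases hy : y ∈ U
    · rw [indicator_of_mem hy]
      exact Measure.restrict_apply_le _ _
    · rw [indicator_of_notMem hy, nonpos_iff_eq_zero, Measure.restrict_apply' hC]
      have : {z : Fin k → ℝ | ∀ i, |z i - y i| < ρ} ∩ C = ∅ := by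
        rw [eq_empty_iff_forall_notMem]
        rintro z ⟨hz, hzC⟩
        apply hy
        apply hCU
        rw [Metric.mem_thickening_iff]
        refine ⟨z, hzC, ?_⟩
        rw [dist_comm]
        have : z ∈ Metric.ball y ρ := by rw [← cube_eq_ball y hρ]; exact hz
        exact this
      rw [this]
      exact measure_empty
  refine (lintegral_mono h7).trans ?_
  rw [lintegral_indicator hU]

lemma le_add_pow {q : ℕ} (hq : 1 ≤ q) {t : ℝ≥0∞} (ht0 : t ≠ 0) (htt : t ≠ ⊤) (a : ℝ≥0∞) :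
    a ≤ t + (t⁻¹) ^ (q - 1) * a ^ q := by
  rcases le_total a t with h | h
  · exact h.trans le_self_add
  · refine le_trans ?_ le_add_self
    obtain ⟨m, rfl⟩ : ∃ m, q = m + 1 := ⟨q - 1, by omega⟩
    rw [Nat.add_sub_cancel, pow_succ, ← mul_assoc, ← mul_pow]
    have h1 : 1 ≤ t⁻¹ * a := by
      rw [← ENNReal.inv_mul_cancel ht0 htt]
      gcongr
    calc a = 1 ^ m * a := by simp
      _ ≤ (t⁻¹ * a) ^ m * a := by gcongr

/-- **Regularity lemma.** -/
theorem regularity {k q : ℕ} (hq : 1 ≤ q) (ν : Measure (Fin k → ℝ)) [IsFiniteMeasure ν]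
    {B' B : Set (Fin k → ℝ)} (hB' : MeasurableSet B') (hBo : IsOpen B) (hsub : B' ⊆ B)
    (t : ℝ≥0∞) (ht0 : t ≠ 0) (htt : t ≠ ⊤) (ρ : ℕ → ℝ) (hρ : ∀ n, 0 < ρ n)
    (hρ0 : Tendsto ρ atTop (𝓝 0)) :
    ν B' ≤ t * volume B' + (t⁻¹) ^ (q - 1) *
      liminf (fun n => ∫⁻ y in B,
        ((ENNReal.ofReal (2 * ρ n))⁻¹ ^ k * ν {z | ∀ i, |z i - y i| < ρ n}) ^ q) atTop := by
  set R : ℝ≥0∞ := (t⁻¹) ^ (q - 1) *
      liminf (fun n => ∫⁻ y in B,
        ((ENNReal.ofReal (2 * ρ n))⁻¹ ^ k * ν {z | ∀ i, |z i - y i| < ρ n}) ^ q) atTop with hR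
  -- compact sets
  have key : ∀ C : Set (Fin k → ℝ), IsCompact C → C ⊆ B' → ν C ≤ t * volume B' + R := by
    intro C hC hCB'
    have hCm : MeasurableSet C := hC.isClosed.measurableSet
    -- open sets
    have key2 : ∀ U : Set (Fin k → ℝ), IsOpen U → C ⊆ U → U ⊆ B → ν C ≤ t * volume U + R := by
      intro U hU hCU hUB
      obtain ⟨δ, hδ, hδU⟩ := hC.exists_thickening_subset_open hU hCU
      have hev : ∀ᶠ n in atTop, ρ n < δ := by
        have := (tendsto_order.1 hρ0).2 δ hδ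
        exact this
      have hle : ∀ᶠ n in atTop, ν C ≤ t * volume U + (t⁻¹) ^ (q - 1) * ∫⁻ y in B,
          ((ENNReal.ofReal (2 * ρ n))⁻¹ ^ k * ν {z | ∀ i, |z i - y i| < ρ n}) ^ q := by
        filter_upwards [hev] with n hn
        have h1 := measure_le_lintegral_cube ν hCm (hρ n)
          ((Metric.thickening_mono hn.le C).trans hδU) hU.measurableSet
        refine h1.trans ?_
        have hm : Measurable fun y : Fin k → ℝ =>
            ((ENNReal.ofReal (2 * ρ n))⁻¹ ^ k * ν {z | ∀ i, |z i - y i| < ρ n}) ^ q :=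
          ((measurable_measure_prodMk_left (measurableSet_cube (ρ n))).const_mul _).pow_const q
        calc ∫⁻ y in U, (ENNReal.ofReal (2 * ρ n))⁻¹ ^ k * ν {z | ∀ i, |z i - y i| < ρ n}
            ≤ ∫⁻ y in U, (t + (t⁻¹) ^ (q - 1) *
              ((ENNReal.ofReal (2 * ρ n))⁻¹ ^ k * ν {z | ∀ i, |z i - y i| < ρ n}) ^ q) :=
              lintegral_mono fun y => le_add_pow hq ht0 htt _
          _ = t * volume U + (t⁻¹) ^ (q - 1) * ∫⁻ y in U,
              ((ENNReal.ofReal (2 * ρ n))⁻¹ ^ k * ν {z | ∀ i, |z i - y i| < ρ n}) ^ q := by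
              rw [lintegral_add_left measurable_const, setLIntegral_const,
                lintegral_const_mul _ hm]
          _ ≤ _ := by
              gcongr
      have hge : ν C - t * volume U ≤ liminf (fun n => (t⁻¹) ^ (q - 1) * ∫⁻ y in B,
          ((ENNReal.ofReal (2 * ρ n))⁻¹ ^ k * ν {z | ∀ i, |z i - y i| < ρ n}) ^ q) atTop := by
        refine le_liminf_of_le (by isBoundedDefault) ?_
        filter_upwards [hle] with n hn
        exact tsub_le_iff_left.mpr hn
      rw [ENNReal.liminf_const_mul_of_ne_top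
        (ENNReal.pow_ne_top (ENNReal.inv_ne_top.mpr ht0))] at hge
      exact tsub_le_iff_left.mp hge
    -- outer regularity of the volume
    by_cases hvt : volume B' = ⊤
    · rw [hvt, ENNReal.mul_top ht0, top_add]
      exact le_top
    have hvC : volume C ≠ ⊤ := ne_top_of_le_ne_top hvt (measure_mono hCB')
    refine ENNReal.le_of_forall_pos_le_add fun ε hε _ => ?_
    have hε' : ((ε : ℝ≥0∞) / t) ≠ 0 := by
      refine ENNReal.div_ne_zero.mpr ⟨by exact_mod_cast hε.ne', htt⟩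
    obtain ⟨U0, hCU0, hU0, hU0v⟩ := C.exists_isOpen_lt_add (μ := volume) hvC hε'
    have h3 := key2 (U0 ∩ B) (hU0.inter hBo) (subset_inter hCU0 (hCB'.trans hsub))
      inter_subset_right
    calc ν C ≤ t * volume (U0 ∩ B) + R := h3
      _ ≤ t * (volume B' + ε / t) + R := by
          gcongr
          calc volume (U0 ∩ B) ≤ volume U0 := measure_mono inter_subset_left
            _ ≤ volume C + ε / t := hU0v.le
            _ ≤ volume B' + ε / t := by gcongr
      _ = t * volume B' + R + ε := by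
          rw [mul_add, ENNReal.mul_div_cancel ht0 htt]
          ring
  -- inner regularity of ν
  rw [hB'.measure_eq_iSup_isCompact_of_ne_top (measure_ne_top ν B')]
  refine iSup_le fun C => iSup_le fun hCB' => iSup_le fun hC => ?_
  exact key C hC hCB'

end Crest.Agent.R322
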