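import Mathlib
import Crest.Agent.R322.Moments
import Crest.Agent.R322.Regularity

/-!
Core of the block lemma: a message `F (X, X s)` with values in a finite set `J` cannot concentrate
measures with bounded negative energy.
-/

open MeasureTheory ProbabilityTheory Set Filter Topology
open scoped ENNReal RealInnerProductSpace NNReal

namespace Crest.Agent.R322

section

variable {E : Type*} [NormedAddCommGroup E] [InnerProductSpace ℝ E] [FiniteDimensional ℝ E]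
  [MeasurableSpace E] [BorelSpace E]

lemma measurableSet_obs3 {k : ℕ} (ρ : ℝ) :
    MeasurableSet {q : ((Fin k → E) × (Fin k → ℝ)) × E | ∀ i, |⟪q.1.1 i, q.2⟫ - q.1.2 i| < ρ} := by
  have : {q : ((Fin k → E) × (Fin k → ℝ)) × E | ∀ i, |⟪q.1.1 i, q.2⟫ - q.1.2 i| < ρ} =
      ⋂ i, {q : ((Fin k → E) × (Fin k → ℝ)) × E | |⟪q.1.1 i, q.2⟫ - q.1.2 i| < ρ} := by
    ext q; simp
  rw [this]
  refine MeasurableSet.iInter fun i => measurableSet_lt ?_ measurable_const
  fun_prop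

lemma measurableSet_obs3' {k : ℕ} (ρ : ℝ) :
    MeasurableSet {q : ((Fin k → ℝ) × E) × (Fin k → E) | ∀ i, |⟪q.2 i, q.1.2⟫ - q.1.1 i| < ρ} := by
  have : {q : ((Fin k → ℝ) × E) × (Fin k → E) | ∀ i, |⟪q.2 i, q.1.2⟫ - q.1.1 i| < ρ} =
      ⋂ i, {q : ((Fin k → ℝ) × E) × (Fin k → E) | |⟪q.2 i, q.1.2⟫ - q.1.1 i| < ρ} := by
    ext q; simp
  rw [this]
  refine MeasurableSet.iInter fun i => measurableSet_lt ?_ measurable_const
  fun_prop

lemma measurableSet_obs2 {k : ℕ} (s : E) (ρ : ℝ) :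
    MeasurableSet {q : (Fin k → E) × (Fin k → ℝ) | ∀ i, |⟪q.1 i, s⟫ - q.2 i| < ρ} := by
  have : {q : (Fin k → E) × (Fin k → ℝ) | ∀ i, |⟪q.1 i, s⟫ - q.2 i| < ρ} =
      ⋂ i, {q : (Fin k → E) × (Fin k → ℝ) | |⟪q.1 i, s⟫ - q.2 i| < ρ} := by
    ext q; simp
  rw [this]
  refine MeasurableSet.iInter fun i => measurableSet_lt ?_ measurable_const
  fun_prop

lemma volume_cube {k : ℕ} (z : Fin k → ℝ) {ρ : ℝ} (hρ : 0 < ρ) :
    volume {y : Fin k → ℝ | ∀ i, |z i - y i| < ρ} = (ENNReal.ofReal (2 * ρ)) ^ k := by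
  have h1 : {y : Fin k → ℝ | ∀ i, |z i - y i| < ρ} = {y | ∀ i, |y i - z i| < ρ} := by
    ext y; simp only [mem_ofPred_eq]
    exact forall_congr' fun i => by rw [abs_sub_comm]
  rw [h1, cube_eq_ball z hρ, Real.volume_pi_ball _ hρ, Fintype.card_fin,
    ENNReal.ofReal_pow (by positivity)]

lemma lintegral_measure_cube {k : ℕ} (s : E) {ρ : ℝ} (hρ : 0 < ρ) :
    ∫⁻ y : Fin k → ℝ, (Measure.pi fun _ : Fin k => stdGaussian E)
      {X | ∀ i, |⟪X i, s⟫ - y i| < ρ} = (ENNReal.ofReal (2 * ρ)) ^ k := by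
  have hS := measurableSet_obs2 (k := k) s ρ
  have h5 := Measure.prod_apply (μ := Measure.pi fun _ : Fin k => stdGaussian E)
    (ν := (volume : Measure (Fin k → ℝ))) hS
  have h6 := Measure.prod_apply_symm (μ := Measure.pi fun _ : Fin k => stdGaussian E)
    (ν := (volume : Measure (Fin k → ℝ))) hS
  rw [h5] at h6
  have h7 : ∀ X : Fin k → E, volume (Prod.mk X ⁻¹'
      {q : (Fin k → E) × (Fin k → ℝ) | ∀ i, |⟪q.1 i, s⟫ - q.2 i| < ρ}) =
      (ENNReal.ofReal (2 * ρ)) ^ k := fun X => volume_cube (fun i => ⟪X i, s⟫) hρ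
  rw [lintegral_congr h7] at h6
  simp only [lintegral_const, measure_univ, mul_one] at h6
  exact h6.symm

/-- Integrated moment bound. -/
theorem moments_int {k : ℕ} (ν : Measure E) [SFinite ν] (n : ℕ) (D : ℝ≥0∞)
    (hD : ∀ V : Submodule ℝ E, Module.finrank ℝ V < n + 1 →
      ∫⁻ s, ((ENNReal.ofReal ‖Vᗮ.starProjection s‖)⁻¹) ^ k ∂ν ≤ D)
    {ρ : ℝ} (hρ : 0 < ρ) :
    ∫⁻ X : Fin k → E, (∫⁻ y : Fin k → ℝ, (ν {s | ∀ i, |⟪X i, s⟫ - y i| < ρ}) ^ (n + 1))
        ∂(Measure.pi fun _ : Fin k => stdGaussian E) ≤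
      ((ENNReal.ofReal (2 * ρ / √(2 * Real.pi))) ^ k * D) ^ n *
        ((ENNReal.ofReal (2 * ρ)) ^ k * ν univ) := by
  set P : Measure (Fin k → E) := Measure.pi fun _ : Fin k => stdGaussian E with hP
  set c : ℝ≥0∞ := ENNReal.ofReal (2 * ρ / √(2 * Real.pi)) with hc
  have hmeas2 : Measurable fun q : (Fin k → E) × (Fin k → ℝ) =>
      ν {s | ∀ i, |⟪q.1 i, s⟫ - q.2 i| < ρ} := measurable_measure_prodMk_left (measurableSet_obs3 ρ)
  rw [lintegral_lintegral_swap (hmeas2.pow_const (n + 1)).aemeasurable]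
  -- for fixed y
  have h1 : ∀ y : Fin k → ℝ, ∫⁻ X, (ν {s | ∀ i, |⟪X i, s⟫ - y i| < ρ}) ^ (n + 1) ∂P ≤
      ∫⁻ s, (c ^ k * D) ^ n * P {X | ∀ i, |⟪X i, s⟫ - y i| < ρ} ∂ν := by
    intro y
    set G : (Fin k → E) → ℝ≥0∞ := fun X => ν {s | ∀ i, |⟪X i, s⟫ - y i| < ρ} with hG
    set S : Set ((Fin k → E) × E) := {q | ∀ i, |⟪q.1 i, q.2⟫ - y i| < ρ} with hS
    have hSm : MeasurableSet S := measurableSet_obs y ρ
    have hGm : Measurable G := measurable_measure_obs ν y ρ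
    have h2 : ∀ X : Fin k → E, G X ^ (n + 1) = ∫⁻ s, S.indicator (fun q => G q.1 ^ n) (X, s) ∂ν := by
      intro X
      have h3 : ∀ s, S.indicator (fun q => G q.1 ^ n) (X, s) =
          {s | ∀ i, |⟪X i, s⟫ - y i| < ρ}.indicator (fun _ => G X ^ n) s := by
        intro s
        by_cases hs : (X, s) ∈ S
        · have hs' : s ∈ {s | ∀ i, |⟪X i, s⟫ - y i| < ρ} := hs
          rw [indicator_of_mem hs, indicator_of_mem hs']
        · have hs' : s ∉ {s | ∀ i, |⟪X i, s⟫ - y i| < ρ} := hs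
          rw [indicator_of_notMem hs, indicator_of_notMem hs']
      have h20 : MeasurableSet {s : E | ∀ i, |⟪X i, s⟫ - y i| < ρ} := measurable_prodMk_left hSm
      rw [lintegral_congr h3, lintegral_indicator h20, setLIntegral_const, pow_succ]
    change ∫⁻ X, G X ^ (n + 1) ∂P ≤ _
    rw [lintegral_congr h2]
    have hmeas : Measurable (fun q : (Fin k → E) × E => S.indicator (fun q => G q.1 ^ n) q) :=
      Measurable.indicator ((hGm.pow_const n).comp measurable_fst) hSm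
    rw [lintegral_lintegral_swap hmeas.aemeasurable]
    refine lintegral_mono fun s => ?_
    have h4 := moments_aux ν (n + 1) D hD y ρ n [s] (by simp [add_comm])
    have h5 : {X : Fin k → E | ∀ i, ∀ u ∈ [s], |⟪X i, u⟫ - y i| < ρ} =
        {X | ∀ i, |⟪X i, s⟫ - y i| < ρ} := by
      ext X; simp
    rw [h5] at h4
    refine le_trans (le_of_eq (lintegral_congr fun X => ?_)) h4
    by_cases hX : (X, s) ∈ S
    · have hX' : X ∈ {X : Fin k → E | ∀ i, |⟪X i, s⟫ - y i| < ρ} := hX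
      rw [indicator_of_mem hX, indicator_of_mem hX']
    · have hX' : X ∉ {X : Fin k → E | ∀ i, |⟪X i, s⟫ - y i| < ρ} := hX
      rw [indicator_of_notMem hX, indicator_of_notMem hX']
  refine (lintegral_mono h1).trans ?_
  have hmeas3 : Measurable fun q : (Fin k → ℝ) × E =>
      P {X | ∀ i, |⟪X i, q.2⟫ - q.1 i| < ρ} := measurable_measure_prodMk_left (measurableSet_obs3' ρ)
  rw [lintegral_lintegral_swap ((hmeas3.const_mul _).aemeasurable)]
  have h6 : ∀ s : E, ∫⁻ y : Fin k → ℝ, (c ^ k * D) ^ n * P {X | ∀ i, |⟪X i, s⟫ - y i| < ρ} =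
      (c ^ k * D) ^ n * (ENNReal.ofReal (2 * ρ)) ^ k := by
    intro s
    have h7 : Measurable fun y : Fin k → ℝ => P {X | ∀ i, |⟪X i, s⟫ - y i| < ρ} :=
      hmeas3.comp (measurable_id.prodMk measurable_const)
    rw [lintegral_const_mul _ h7, lintegral_measure_cube s hρ]
  rw [lintegral_congr h6, lintegral_const]
  rw [mul_assoc]

/-- Normalised version. -/
theorem moments_int' {k : ℕ} (ν : Measure E) [SFinite ν] (n : ℕ) (D : ℝ≥0∞)
    (hD : ∀ V : Submodule ℝ E, Module.finrank ℝ V < n + 1 →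
      ∫⁻ s, ((ENNReal.ofReal ‖Vᗮ.starProjection s‖)⁻¹) ^ k ∂ν ≤ D)
    {ρ : ℝ} (hρ : 0 < ρ) :
    ∫⁻ X : Fin k → E, (∫⁻ y : Fin k → ℝ,
        ((ENNReal.ofReal (2 * ρ))⁻¹ ^ k * ν {s | ∀ i, |⟪X i, s⟫ - y i| < ρ}) ^ (n + 1))
        ∂(Measure.pi fun _ : Fin k => stdGaussian E) ≤
      ((ENNReal.ofReal (1 / √(2 * Real.pi))) ^ k * D) ^ n * ν univ := by
  set P : Measure (Fin k → E) := Measure.pi fun _ : Fin k => stdGaussian E with hP
  set a : ℝ≥0∞ := ENNReal.ofReal (2 * ρ) with ha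
  have ha0 : a ≠ 0 := by
    rw [ha, Ne, ENNReal.ofReal_eq_zero, not_le]
    positivity
  have hat : a ≠ ⊤ := ENNReal.ofReal_ne_top
  have hmeas2 : Measurable fun q : (Fin k → E) × (Fin k → ℝ) =>
      ν {s | ∀ i, |⟪q.1 i, s⟫ - q.2 i| < ρ} := measurable_measure_prodMk_left (measurableSet_obs3 ρ)
  have h1 : ∀ X : Fin k → E, ∫⁻ y : Fin k → ℝ,
      (a⁻¹ ^ k * ν {s | ∀ i, |⟪X i, s⟫ - y i| < ρ}) ^ (n + 1) =
      (a⁻¹ ^ k) ^ (n + 1) * ∫⁻ y : Fin k → ℝ, (ν {s | ∀ i, |⟪X i, s⟫ - y i| < ρ}) ^ (n + 1) := by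
    intro X
    rw [← lintegral_const_mul]
    · refine lintegral_congr fun y => ?_
      rw [mul_pow]
    · exact (hmeas2.comp measurable_prodMk_left).pow_const _
  rw [lintegral_congr h1, lintegral_const_mul _
    (Measurable.lintegral_prod_right' (hmeas2.pow_const (n + 1)))]
  have h2 := moments_int ν n D hD hρ
  have h3 : ENNReal.ofReal (2 * ρ / √(2 * Real.pi)) = a * ENNReal.ofReal (1 / √(2 * Real.pi)) := by
    rw [ha, ← ENNReal.ofReal_mul (by positivity)]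
    congr 1
    ring
  rw [h3] at h2
  set c : ℝ≥0∞ := ENNReal.ofReal (1 / √(2 * Real.pi)) with hc
  have haa : a⁻¹ * a = 1 := ENNReal.inv_mul_cancel ha0 hat
  calc (a⁻¹ ^ k) ^ (n + 1) * ∫⁻ X : Fin k → E, (∫⁻ y : Fin k → ℝ,
        (ν {s | ∀ i, |⟪X i, s⟫ - y i| < ρ}) ^ (n + 1)) ∂P
      ≤ (a⁻¹ ^ k) ^ (n + 1) * (((a * c) ^ k * D) ^ n * (a ^ k * ν univ)) := by gcongr
    _ = ((a⁻¹ * a) ^ k) ^ (n + 1) * ((c ^ k * D) ^ n * ν univ) := by
        simp only [mul_pow, pow_succ]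
        ring
    _ = (c ^ k * D) ^ n * ν univ := by
        rw [haa]; simp

/-- **Core of the block lemma.** -/
theorem block_core {k : ℕ} {J : Type*} [Fintype J] (ν : J → Measure E)
    [∀ j, IsFiniteMeasure (ν j)] (n : ℕ) (D : ℝ≥0∞)
    (hD : ∀ j, ∀ V : Submodule ℝ E, Module.finrank ℝ V < n + 1 →
      ∫⁻ s, ((ENNReal.ofReal ‖Vᗮ.starProjection s‖)⁻¹) ^ k ∂(ν j) ≤ D)
    (m : ℝ≥0∞) (hm : ∀ j, ν j univ ≤ m)
    (F : (Fin k → E) → (Fin k → ℝ) → J)
    (hF : ∀ j, MeasurableSet {p : (Fin k → E) × (Fin k → ℝ) | F p.1 p.2 = j})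
    (Reg : Set ((Fin k → E) × (Fin k → ℝ))) (hReg : MeasurableSet Reg)
    (t : ℝ≥0∞) (ht0 : t ≠ 0) (htt : t ≠ ⊤) :
    ∑ j, ∫⁻ X, ν j {s | F X (fun i => ⟪X i, s⟫) = j ∧ (X, fun i => ⟪X i, s⟫) ∈ Reg}
        ∂(Measure.pi fun _ : Fin k => stdGaussian E) ≤
      t * ∫⁻ X, volume {y : Fin k → ℝ | (X, y) ∈ Reg}
        ∂(Measure.pi fun _ : Fin k => stdGaussian E) +
      (t⁻¹) ^ n * ((Fintype.card J : ℝ≥0∞) *
        (((ENNReal.ofReal (1 / √(2 * Real.pi))) ^ k * D) ^ n * m)) := by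
  set P : Measure (Fin k → E) := Measure.pi fun _ : Fin k => stdGaussian E with hP
  set c : ℝ≥0∞ := ENNReal.ofReal (1 / √(2 * Real.pi)) with hc
  set ρ : ℕ → ℝ := fun N => 1 / ((N : ℝ) + 1) with hρdef
  have hρ : ∀ N, 0 < ρ N := fun N => by positivity
  have hρ0 : Tendsto ρ atTop (𝓝 0) := tendsto_one_div_add_atTop_nhds_zero_nat
  set H : J → ℕ → (Fin k → E) → ℝ≥0∞ := fun j N X => ∫⁻ y : Fin k → ℝ,
        ((ENNReal.ofReal (2 * ρ N))⁻¹ ^ k * ν j {s | ∀ i, |⟪X i, s⟫ - y i| < ρ N}) ^ (n + 1)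
    with hH
  have hHm : ∀ j N, Measurable (H j N) := by
    intro j N
    have hmeas2 : Measurable fun q : (Fin k → E) × (Fin k → ℝ) =>
        ((ENNReal.ofReal (2 * ρ N))⁻¹ ^ k *
          ν j {s | ∀ i, |⟪q.1 i, s⟫ - q.2 i| < ρ N}) ^ (n + 1) :=
      ((measurable_measure_prodMk_left (measurableSet_obs3 (ρ N))).const_mul _).pow_const _
    exact hmeas2.lintegral_prod_right'
  have hobs : ∀ X : Fin k → E, Measurable fun s : E => (fun i => ⟪X i, s⟫ : Fin k → ℝ) := by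
    intro X; fun_prop
  -- pointwise bound
  have hpt : ∀ j X, ν j {s | F X (fun i => ⟪X i, s⟫) = j ∧ (X, fun i => ⟪X i, s⟫) ∈ Reg} ≤
      t * volume {y : Fin k → ℝ | F X y = j ∧ (X, y) ∈ Reg} +
        (t⁻¹) ^ n * liminf (fun N => H j N X) atTop := by
    intro j X
    have hBm : MeasurableSet {y : Fin k → ℝ | F X y = j ∧ (X, y) ∈ Reg} :=
      (measurable_prodMk_left (hF j)).inter (measurable_prodMk_left hReg)
    have h1 := regularity (q := n + 1) (by omega) ((ν j).map (fun s : E => fun i => ⟪X i, s⟫))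
      hBm isOpen_univ (subset_univ _) t ht0 htt ρ hρ hρ0
    rw [Measure.map_apply (hobs X) hBm] at h1
    refine h1.trans (le_of_eq ?_)
    rw [Nat.add_sub_cancel]
    congr 2
    congr 1
    funext N
    rw [Measure.restrict_univ]
    refine lintegral_congr fun y => ?_
    have h2 : MeasurableSet {z : Fin k → ℝ | ∀ i, |z i - y i| < ρ N} := by
      rw [cube_eq_ball y (hρ N)]
      exact Metric.isOpen_ball.measurableSet
    rw [Measure.map_apply (hobs X) h2]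
    rfl
  -- sum over the messages
  have hsum : ∀ X, ∑ j, ν j {s | F X (fun i => ⟪X i, s⟫) = j ∧ (X, fun i => ⟪X i, s⟫) ∈ Reg} ≤
      t * volume {y : Fin k → ℝ | (X, y) ∈ Reg} +
        (t⁻¹) ^ n * ∑ j, liminf (fun N => H j N X) atTop := by
    intro X
    refine (Finset.sum_le_sum fun j _ => hpt j X).trans ?_
    rw [Finset.sum_add_distrib, ← Finset.mul_sum, ← Finset.mul_sum]
    gcongr
    rw [← measure_biUnion_finset]
    · refine measure_mono ?_
      intro y hy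
      simp only [mem_iUnion] at hy
      obtain ⟨j, _, hj⟩ := hy
      exact hj.2
    · intro i _ j _ hij
      rw [Function.onFun, Set.disjoint_left]
      rintro y ⟨h1, _⟩ ⟨h2, _⟩
      exact hij (h1.symm.trans h2)
    · intro j _
      exact (measurable_prodMk_left (hF j)).inter (measurable_prodMk_left hReg)
  have hmeasj : ∀ j, Measurable fun X : Fin k → E =>
      ν j {s | F X (fun i => ⟪X i, s⟫) = j ∧ (X, fun i => ⟪X i, s⟫) ∈ Reg} := by
    intro j
    have hφ : Measurable fun q : (Fin k → E) × E =>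
        ((q.1, fun i => ⟪q.1 i, q.2⟫) : (Fin k → E) × (Fin k → ℝ)) := by
      fun_prop
    have hset : MeasurableSet {q : (Fin k → E) × E |
        F q.1 (fun i => ⟪q.1 i, q.2⟫) = j ∧ (q.1, fun i => ⟪q.1 i, q.2⟫) ∈ Reg} :=
      (hφ (hF j)).inter (hφ hReg)
    exact measurable_measure_prodMk_left hset
  rw [← lintegral_finsetSum _ (fun j _ => hmeasj j)]
  refine (lintegral_mono hsum).trans ?_
  have hvolm : Measurable fun X : Fin k → E => volume {y : Fin k → ℝ | (X, y) ∈ Reg} :=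
    measurable_measure_prodMk_left hReg
  have hlim : ∀ j, Measurable fun X => liminf (fun N => H j N X) atTop :=
    fun j => Measurable.liminf (hHm j)
  rw [lintegral_add_left (hvolm.const_mul t), lintegral_const_mul _ hvolm,
    lintegral_const_mul _ (Finset.measurable_sum _ fun j _ => hlim j),
    lintegral_finsetSum _ (fun j _ => hlim j)]
  gcongr
  calc ∑ j, ∫⁻ X, liminf (fun N => H j N X) atTop ∂P
      ≤ ∑ _j : J, (c ^ k * D) ^ n * m := by
        refine Finset.sum_le_sum fun j _ => ?_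
        refine (lintegral_liminf_le (hHm j)).trans ?_
        refine liminf_le_of_le (by isBoundedDefault) ?_
        intro b hb
        obtain ⟨N, hN⟩ := hb.exists
        refine hN.trans ?_
        refine (moments_int' (ν j) n D (hD j) (hρ N)).trans ?_
        gcongr
        exact hm j
    _ = (Fintype.card J : ℝ≥0∞) * ((c ^ k * D) ^ n * m) := by
        rw [Finset.sum_const, Finset.card_univ, nsmul_eq_mul]

end

end Crest.Agent.R322
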