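import Crest.Prelude.Def_StreamLearn

/-!
R322 interface (helper104): the Frostman route of helper364.
`final_of` (file Final.lean) proves S0499 from the three statements
`BlockLemma`, `CapBound`, `SmallT` below.
-/

set_option autoImplicit false

namespace Crest.Agent.R322

open MeasureTheory Crest.StreamLearn
open scoped ENNReal

/-- block length and moment order -/
def bl (d : ℕ) : ℕ := d / 8

/-- Frostman exponent -/
def et (d : ℕ) : ℕ := 2 * (d / 8)

/-- Frostman condition with natural exponent `η`. -/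
def Frost {d : ℕ} (η : ℕ) (κ : ℝ≥0∞) (ν : Measure (E d)) : Prop :=
  ∀ (x : E d) (r : ℝ), 0 < r → ν (Metric.closedBall x r) ≤ κ * ENNReal.ofReal r ^ η

/-- the uniform law of the sphere as a measure on `E d` -/
noncomputable def sphE (d : ℕ) : Measure (E d) :=
  (sphereUniform d).map (fun s : Sphere d => (s : E d))

/-- i.i.d. standard Gaussian samples -/
noncomputable def gam (d B : ℕ) : Measure (Fin B → E d) :=
  Measure.pi fun _ : Fin B => ProbabilityTheory.stdGaussian (E d)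

/-- the BLOCK LEMMA (helper364 (ii)); `J` = messages, `|J|^(1/p)` loss with `p = bl d`. -/
def BlockLemma : Prop :=
  ∃ C : ℝ, 1 ≤ C ∧ ∃ d₁ : ℕ, ∀ d ≥ d₁,
    ∀ (J : Type) [Fintype J] (κ : ℝ≥0∞) (ν : J → Measure (E d)),
      (∀ j, IsFiniteMeasure (ν j)) → (∀ j, Frost (et d) κ (ν j)) →
      ∀ (F : (Fin (bl d) → E d) → (Fin (bl d) → ℝ) → J),
      (∀ j, MeasurableSet {p : (Fin (bl d) → E d) × (Fin (bl d) → ℝ) | F p.1 p.2 = j}) →
      ∀ (x : E d) (r : ℝ), 0 < r →
        ∑ j, ∫⁻ X, ν j {s | s ∈ Metric.closedBall x r ∧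
            F X (fun i => inner ℝ (X i) s) = j} ∂(gam d (bl d))
          ≤ κ * ENNReal.ofReal C ^ d * (Fintype.card J : ℝ≥0∞) ^ ((1 : ℝ) / (bl d : ℝ))
              * ENNReal.ofReal r ^ (et d)

/-- cap bound for the uniform law of the sphere -/
def CapBound : Prop :=
  ∃ C : ℝ, 1 ≤ C ∧ ∃ d₁ : ℕ, ∀ d ≥ d₁, ∀ (x : E d) (r : ℝ), 0 < r →
    sphE d (Metric.closedBall x r) ≤ ENNReal.ofReal C ^ d * ENNReal.ofReal r ^ (d - 1)

/-- small number of samples: nothing can be learned -/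
def SmallT : Prop :=
  ∃ d₁ : ℕ, ∀ d ≥ d₁, ∀ (M T : ℕ) (ε : ℝ), 0 < ε → ε ≤ 1 / 10 →
    ∀ L : RLearner d T M, 2 / 3 ≤ L.successProb ε → (d : ℝ) / 8 ≤ T

end Crest.Agent.R322
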