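import Mathlib
import Crest.Agent.R322.Iface
import Crest.Agent.R322.BlockCore

/-!
The core estimates with `Metric.infDist` in `E d` (interface for the block lemma).
-/

open MeasureTheory ProbabilityTheory Set Filter Topology
open scoped ENNReal RealInnerProductSpace NNReal

namespace Crest.Agent.R322

theorem norm_starProjection_orthogonal {E : Type*} [NormedAddCommGroup E] [InnerProductSpace ℝ E]
    [FiniteDimensional ℝ E] (V : Submodule ℝ E) (s : E) :
    ‖Vᗮ.starProjection s‖ = Metric.infDist s (V : Set E) := by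
  have h1 : Vᗮ.starProjection s = s - V.starProjection s := by
    rw [Submodule.starProjection_orthogonal']
    simp
  rw [h1, Submodule.starProjection_minimal, Metric.infDist_eq_iInf]
  simp only [dist_eq_norm]
  rfl

/-- `moments_int` in the form asked by the block lemma. -/
theorem moment_int {d b : ℕ} (ν : Measure (Crest.StreamLearn.E d)) [IsFiniteMeasure ν] (D : ℝ≥0∞)
    (hb : 1 ≤ b)
    (hD : ∀ V : Submodule ℝ (Crest.StreamLearn.E d), Module.finrank ℝ V < b →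
      ∫⁻ s, ((ENNReal.ofReal (Metric.infDist s (V : Set (Crest.StreamLearn.E d))))⁻¹) ^ b ∂ν ≤ D)
    (ρ : ℝ) (hρ : 0 < ρ) :
    ∫⁻ X, (∫⁻ y : Fin b → ℝ, (ν {s | ∀ i, |inner ℝ (X i) s - y i| < ρ}) ^ b) ∂(gam d b) ≤
      ((ENNReal.ofReal (2 * ρ / √(2 * Real.pi))) ^ b * D) ^ (b - 1) *
        (ENNReal.ofReal (2 * ρ)) ^ b * ν univ := by
  obtain ⟨n, rfl⟩ : ∃ n, b = n + 1 := ⟨b - 1, by omega⟩
  have h := moments_int (k := n + 1) ν n D
    (by simpa only [norm_starProjection_orthogonal] using hD) hρ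
  rw [Nat.add_sub_cancel, mul_assoc]
  exact h

/-- `block_core` in the form asked by the block lemma. -/
theorem block_coreE {d b : ℕ} {J : Type*} [Fintype J] (ν : J → Measure (Crest.StreamLearn.E d))
    (hfin : ∀ j, IsFiniteMeasure (ν j)) (D : ℝ≥0∞) (hb : 1 ≤ b)
    (hD : ∀ j, ∀ V : Submodule ℝ (Crest.StreamLearn.E d), Module.finrank ℝ V < b →
      ∫⁻ s, ((ENNReal.ofReal (Metric.infDist s (V : Set (Crest.StreamLearn.E d))))⁻¹) ^ b
        ∂(ν j) ≤ D)
    (m : ℝ≥0∞) (hm : ∀ j, ν j univ ≤ m)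
    (F : (Fin b → Crest.StreamLearn.E d) → (Fin b → ℝ) → J)
    (hF : ∀ j, MeasurableSet {p : (Fin b → Crest.StreamLearn.E d) × (Fin b → ℝ) | F p.1 p.2 = j})
    (Reg : Set ((Fin b → Crest.StreamLearn.E d) × (Fin b → ℝ))) (hReg : MeasurableSet Reg)
    (t : ℝ≥0∞) (ht0 : t ≠ 0) (htt : t ≠ ⊤) :
    ∑ j, ∫⁻ X, ν j {s | F X (fun i => inner ℝ (X i) s) = j ∧
        (X, fun i => inner ℝ (X i) s) ∈ Reg} ∂(gam d b) ≤
      t * ∫⁻ X, volume {y : Fin b → ℝ | (X, y) ∈ Reg} ∂(gam d b) +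
      (t⁻¹) ^ (b - 1) * ((Fintype.card J : ℝ≥0∞) *
        (((ENNReal.ofReal (1 / √(2 * Real.pi))) ^ b * D) ^ (b - 1) * m)) := by
  obtain ⟨n, rfl⟩ : ∃ n, b = n + 1 := ⟨b - 1, by omega⟩
  have := hfin
  have h := block_core (k := n + 1) ν n D
    (by simpa only [norm_starProjection_orthogonal] using hD) m hm F hF Reg hReg t ht0 htt
  rw [Nat.add_sub_cancel]
  exact h

end Crest.Agent.R322
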