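import Crest.Agent.R322.Iface
import Crest.Agent.R322.SmallBall

/-!
R322, part (B) of the Frostman route (helper557): a measurable region containing all the points
`(X, Xs)`, `s ∈ closedBall x0 ρ`, whose measure is at most `5 ^ d * (11 ρ) ^ B`.
-/

set_option autoImplicit false

open MeasureTheory ProbabilityTheory Set Crest.StreamLearn
open scoped ENNReal RealInnerProductSpace NNReal

namespace Crest.Agent.R322

/-- a half-net of the unit ball with at most `5 ^ d` points -/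
lemma exists_half_net (d : ℕ) : ∃ N : Finset (E d), N.card ≤ 5 ^ d ∧ (∀ c ∈ N, ‖c‖ ≤ 1) ∧
    ∀ v : E d, ‖v‖ ≤ 1 → ∃ c ∈ N, ‖v - c‖ ≤ 1 / 2 := by
  classical
  set P : Finset (E d) → Prop := fun S => (∀ c ∈ S, ‖c‖ ≤ 1) ∧
    ∀ c ∈ S, ∀ e ∈ S, c ≠ e → 1 / 2 ≤ ‖c - e‖ with hP
  have hcard : ∀ S, P S → S.card ≤ 5 ^ d := by
    intro S hS
    have hinj : Function.Injective (fun c : E d => (2 : ℝ) • c) := by
      intro a b hab
      have : (2 : ℝ) • a = (2 : ℝ) • b := hab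
      exact (smul_right_injective (E d) (two_ne_zero : (2 : ℝ) ≠ 0)) this
    have h := Besicovitch.card_le_of_separated (S.image fun c : E d => (2 : ℝ) • c) ?_ ?_
    · rw [Finset.card_image_of_injective _ hinj] at h
      simpa using h
    · intro c hc
      obtain ⟨a, ha, rfl⟩ := Finset.mem_image.1 hc
      rw [norm_smul]
      have := hS.1 a ha
      norm_num
      linarith
    · intro c hc e he hce
      obtain ⟨a, ha, rfl⟩ := Finset.mem_image.1 hc
      obtain ⟨b, hb, rfl⟩ := Finset.mem_image.1 he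
      have hab : a ≠ b := fun h => hce (by rw [h])
      have := hS.2 a ha b hb hab
      rw [← smul_sub, norm_smul]
      norm_num
      linarith
  have hex : ∃ S, P S ∧ ∀ S', P S' → S'.card ≤ S.card := by
    set A : Set ℕ := {n | ∃ S, P S ∧ S.card = n} with hA
    have hne : A.Nonempty := ⟨0, ∅, ⟨by simp, by simp⟩, by simp⟩
    have hbdd : BddAbove A := ⟨5 ^ d, by
      rintro n ⟨S, hS, rfl⟩
      exact hcard S hS⟩
    obtain ⟨S, hS, hSn⟩ := Nat.sSup_mem hne hbdd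
    refine ⟨S, hS, fun S' hS' => ?_⟩
    rw [hSn]
    exact le_csSup hbdd ⟨S', hS', rfl⟩
  obtain ⟨S, hS, hmax⟩ := hex
  refine ⟨S, hcard S hS, hS.1, fun v hv => ?_⟩
  by_contra hcon
  push Not at hcon
  have hvS : v ∉ S := by
    intro hvS
    have := hcon v hvS
    simp at this
    linarith
  have hP' : P (insert v S) := by
    refine ⟨?_, ?_⟩
    · intro c hc
      rcases Finset.mem_insert.1 hc with rfl | hc
      · exact hv
      · exact hS.1 c hc
    · intro c hc e he hce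
      rcases Finset.mem_insert.1 hc with rfl | hc'
      · rcases Finset.mem_insert.1 he with rfl | he'
        · exact absurd rfl hce
        · exact (hcon e he').le
      · rcases Finset.mem_insert.1 he with rfl | he'
        · rw [norm_sub_rev]
          exact (hcon c hc').le
        · exact hS.2 c hc' e he' hce
  have := hmax _ hP'
  rw [Finset.card_insert_of_notMem hvS] at this
  omega

/-- the linear map `v ↦ (⟪X i, v⟫)_i` into Euclidean space -/
noncomputable def rowMap {d B : ℕ} (X : Fin B → E d) : E d →L[ℝ] EuclideanSpace ℝ (Fin B) :=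
  ((EuclideanSpace.equiv (Fin B) ℝ).symm : (Fin B → ℝ) →L[ℝ] EuclideanSpace ℝ (Fin B)).comp
    (ContinuousLinearMap.pi fun i => innerSL ℝ (X i))

lemma norm_rowMap_sq {d B : ℕ} (X : Fin B → E d) (v : E d) :
    ‖rowMap X v‖ ^ 2 = ∑ i, (⟪X i, v⟫ : ℝ) ^ 2 := by
  rw [EuclideanSpace.norm_sq_eq]
  refine Finset.sum_congr rfl fun i _ => ?_
  simp [rowMap]

/-- comparison with a net: some net point controls all of the ball. -/
lemma exists_net_ctrl {d B : ℕ} (N : Finset (E d))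
    (hN : ∀ v : E d, ‖v‖ ≤ 1 → ∃ c ∈ N, ‖v - c‖ ≤ 1 / 2) (X : Fin B → E d) (ρ : ℝ) (_hρ : 0 < ρ) :
    ∃ c ∈ N, ∀ w : E d, ‖w‖ ≤ ρ →
      ∑ i, (⟪X i, w⟫ : ℝ) ^ 2 ≤ 4 * ρ ^ 2 * ∑ i, (⟪X i, c⟫ : ℝ) ^ 2 := by
  classical
  have hne : N.Nonempty := by
    obtain ⟨c, hc, -⟩ := hN 0 (by simp)
    exact ⟨c, hc⟩
  obtain ⟨c, hc, hmax⟩ := Finset.exists_max_image N (fun c => ‖rowMap X c‖) hne
  refine ⟨c, hc, fun w hw => ?_⟩
  have hop : ‖rowMap X‖ ≤ 2 * ‖rowMap X c‖ := by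
    have h1 : ‖rowMap X‖ ≤ ‖rowMap X‖ / 2 + ‖rowMap X c‖ := by
      refine ContinuousLinearMap.opNorm_le_of_unit_norm (by positivity) fun v hv => ?_
      obtain ⟨e, he, hve⟩ := hN v hv.le
      calc ‖rowMap X v‖ = ‖rowMap X (v - e) + rowMap X e‖ := by rw [← map_add, sub_add_cancel]
        _ ≤ ‖rowMap X (v - e)‖ + ‖rowMap X e‖ := norm_add_le _ _
        _ ≤ ‖rowMap X‖ * ‖v - e‖ + ‖rowMap X c‖ :=
            add_le_add ((rowMap X).le_opNorm _) (hmax e he)
        _ ≤ ‖rowMap X‖ * (1 / 2) + ‖rowMap X c‖ := by gcongr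
        _ = _ := by ring
    linarith
  have h2 : ‖rowMap X w‖ ≤ 2 * ‖rowMap X c‖ * ρ :=
    ((rowMap X).le_opNorm w).trans (by gcongr)
  rw [← norm_rowMap_sq, ← norm_rowMap_sq]
  calc ‖rowMap X w‖ ^ 2 ≤ (2 * ‖rowMap X c‖ * ρ) ^ 2 := by gcongr
    _ = _ := by ring

/-- product formula for lower integrals over a finite power -/
lemma lintegral_pi_ofReal_prod {α : Type*} [MeasurableSpace α] (μ : Measure α) [SigmaFinite μ]
    {B : ℕ} (f : Fin B → α → ℝ) (hf : ∀ i, Integrable (f i) μ) (h0 : ∀ i x, 0 ≤ f i x) :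
    ∫⁻ x, ENNReal.ofReal (∏ i, f i (x i)) ∂(Measure.pi fun _ : Fin B => μ)
      = ∏ i, ENNReal.ofReal (∫ x, f i x ∂μ) := by
  rw [← ofReal_integral_eq_lintegral_ofReal (Integrable.fintype_prod (f := f) hf)
    (Filter.Eventually.of_forall fun x => Finset.prod_nonneg fun i _ => h0 i _),
    integral_fintype_prod_eq_prod, ENNReal.ofReal_prod_of_nonneg]
  exact fun i _ => integral_nonneg (h0 i)

/-- `E exp(t²/4) ≤ √2` for a centred Gaussian of variance at most one -/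
lemma integral_exp_sq_gaussian (v : ℝ≥0) (hv : v ≤ 1) :
    Integrable (fun t : ℝ => Real.exp (t ^ 2 / 4)) (gaussianReal 0 v) ∧
    ∫ t, Real.exp (t ^ 2 / 4) ∂(gaussianReal 0 v) ≤ √2 := by
  rcases eq_or_ne v 0 with rfl | hv0
  · rw [gaussianReal_zero_var]
    refine ⟨integrable_dirac (by simp), ?_⟩
    rw [integral_dirac]
    simp
  · have hvpos : 0 < (v : ℝ) := by exact_mod_cast (pos_iff_ne_zero.2 hv0)
    have hv1 : (v : ℝ) ≤ 1 := by exact_mod_cast hv
    set b : ℝ := 1 / (2 * v) - 1 / 4 with hb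
    have hbpos : 0 < b := by
      rw [hb]
      have : 1 / 2 ≤ 1 / (2 * (v : ℝ)) := by
        apply one_div_le_one_div_of_le (by positivity)
        linarith
      linarith
    have hpdf : ∀ t : ℝ, gaussianPDFReal 0 v t * Real.exp (t ^ 2 / 4)
        = (√(2 * Real.pi * v))⁻¹ * Real.exp (-b * t ^ 2) := by
      intro t
      rw [gaussianPDFReal, mul_assoc, ← Real.exp_add]
      congr 2
      rw [hb]
      field_simp
      ring
    have hint : Integrable (fun t : ℝ => gaussianPDFReal 0 v t * Real.exp (t ^ 2 / 4)) := by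
      simp_rw [hpdf]
      exact (integrable_exp_neg_mul_sq hbpos).const_mul _
    refine ⟨?_, ?_⟩
    · rw [gaussianReal_of_var_ne_zero _ hv0]
      rw [integrable_withDensity_iff_integrable_smul₀' (by fun_prop)
        (Filter.Eventually.of_forall fun x => by simp [gaussianPDF])]
      refine hint.congr (Filter.Eventually.of_forall fun t => ?_)
      simp [gaussianPDF, gaussianPDFReal_nonneg]
    · rw [integral_gaussianReal_eq_integral_smul hv0]
      simp_rw [smul_eq_mul, hpdf]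
      rw [integral_const_mul, integral_gaussian]
      rw [← Real.sqrt_inv, ← Real.sqrt_mul (by positivity)]
      apply Real.sqrt_le_sqrt
      rw [hb]
      have hpi := Real.pi_pos
      have h4 : 1 / (2 * (v : ℝ)) - 1 / 4 = (2 - v) / (4 * v) := by
        field_simp
        ring
      rw [h4]
      have h2v : 0 < 2 - (v : ℝ) := by linarith
      have : (2 * Real.pi * (v : ℝ))⁻¹ * (Real.pi / ((2 - v) / (4 * v))) = 2 / (2 - v) := by
        field_simp
        ring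
      rw [this, div_le_iff₀ h2v]
      linarith


/-- the elementary region attached to one net point -/
def regOne {d B : ℕ} (x0 : E d) (ρ : ℝ) (c : E d) : Set ((Fin B → E d) × (Fin B → ℝ)) :=
  {p | ∑ i, (p.2 i - ⟪p.1 i, x0⟫) ^ 2 ≤ 4 * ρ ^ 2 * ∑ i, (⟪p.1 i, c⟫ : ℝ) ^ 2}

lemma measurable_inner_coord {d B : ℕ} (i : Fin B) (c : E d) :
    Measurable fun p : (Fin B → E d) × (Fin B → ℝ) => (⟪p.1 i, c⟫ : ℝ) := by
  have h : Continuous fun p : (Fin B → E d) × (Fin B → ℝ) => (⟪p.1 i, c⟫ : ℝ) := by fun_prop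
  exact h.measurable

lemma measurableSet_regOne {d B : ℕ} (x0 : E d) (ρ : ℝ) (c : E d) :
    MeasurableSet (regOne x0 ρ c : Set ((Fin B → E d) × (Fin B → ℝ))) := by
  refine measurableSet_le ?_ ?_
  · refine Finset.measurable_sum _ fun i _ => ?_
    exact (((measurable_pi_apply i).comp measurable_snd).sub (measurable_inner_coord i x0)).pow_const 2
  · refine Measurable.const_mul ?_ _
    refine Finset.measurable_sum _ fun i _ => ?_
    exact (measurable_inner_coord i c).pow_const 2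

/-- exponential moment of the sum of squares -/
lemma lintegral_exp_sumsq {d B : ℕ} (c : E d) (hc : ‖c‖ ≤ 1) :
    ∫⁻ X, ENNReal.ofReal (∏ i, Real.exp ((⟪X i, c⟫ : ℝ) ^ 2 / 4)) ∂(gam d B)
      ≤ ENNReal.ofReal (√2 ^ B) := by
  have hmap := map_inner_stdGaussian (E := E d) c
  have hv : (‖c‖₊ ^ 2 : ℝ≥0) ≤ 1 := by
    have : ‖c‖₊ ≤ 1 := by exact_mod_cast hc
    exact pow_le_one' this 2
  obtain ⟨hint, hle⟩ := integral_exp_sq_gaussian (‖c‖₊ ^ 2) hv
  have hmeas : Measurable (fun x : E d => (⟪c, x⟫ : ℝ)) := by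
    have : Continuous fun x : E d => (⟪c, x⟫ : ℝ) := by fun_prop
    exact this.measurable
  have hint' : Integrable (fun x : E d => Real.exp ((⟪x, c⟫ : ℝ) ^ 2 / 4)) (stdGaussian (E d)) := by
    have h := (hmap ▸ hint : Integrable (fun t : ℝ => Real.exp (t ^ 2 / 4))
      ((stdGaussian (E d)).map (fun x => ⟪c, x⟫)))
    have h2 := h.comp_measurable hmeas
    refine h2.congr (Filter.Eventually.of_forall fun x => ?_)
    simp [Function.comp, real_inner_comm]
  have heq : ∫ x, Real.exp ((⟪x, c⟫ : ℝ) ^ 2 / 4) ∂(stdGaussian (E d))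
      = ∫ t, Real.exp (t ^ 2 / 4) ∂(gaussianReal 0 (‖c‖₊ ^ 2)) := by
    rw [← hmap, integral_map hmeas.aemeasurable]
    · simp_rw [real_inner_comm]
    · exact (by fun_prop : Continuous fun t : ℝ => Real.exp (t ^ 2 / 4)).aestronglyMeasurable
  rw [gam, lintegral_pi_ofReal_prod (stdGaussian (E d))
    (fun _ x => Real.exp ((⟪x, c⟫ : ℝ) ^ 2 / 4)) (fun _ => hint') (fun _ _ => (Real.exp_pos _).le)]
  rw [Finset.prod_const, Finset.card_univ, Fintype.card_fin, ← ENNReal.ofReal_pow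
    (integral_nonneg fun _ => (Real.exp_pos _).le)]
  refine ENNReal.ofReal_le_ofReal ?_
  refine pow_le_pow_left₀ (integral_nonneg fun _ => (Real.exp_pos _).le) ?_ _
  rw [heq]
  exact hle

/-- Lebesgue integral of the Gaussian weight in `y` -/
lemma lintegral_exp_y {B : ℕ} (a : Fin B → ℝ) (ρ : ℝ) (hρ : 0 < ρ) :
    ∫⁻ y : Fin B → ℝ, ENNReal.ofReal (∏ i, Real.exp (-(y i - a i) ^ 2 / (16 * ρ ^ 2)))
      = ENNReal.ofReal ((4 * √Real.pi * ρ) ^ B) := by
  have hb : 0 < 1 / (16 * ρ ^ 2) := by positivity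
  have hfun : ∀ i, (fun t : ℝ => Real.exp (-(t - a i) ^ 2 / (16 * ρ ^ 2)))
      = fun t : ℝ => (fun s : ℝ => Real.exp (-(1 / (16 * ρ ^ 2)) * s ^ 2)) (t - a i) := by
    intro i
    ext t
    simp only
    congr 1
    ring
  have hint : ∀ i, Integrable (fun t : ℝ => Real.exp (-(t - a i) ^ 2 / (16 * ρ ^ 2))) := by
    intro i
    rw [hfun i]
    exact (integrable_exp_neg_mul_sq hb).comp_sub_right (a i)
  have hval : ∀ i, ∫ t : ℝ, Real.exp (-(t - a i) ^ 2 / (16 * ρ ^ 2)) = 4 * √Real.pi * ρ := by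
    intro i
    rw [hfun i, integral_sub_right_eq_self (fun s : ℝ => Real.exp (-(1 / (16 * ρ ^ 2)) * s ^ 2)),
      integral_gaussian]
    have : Real.pi / (1 / (16 * ρ ^ 2)) = (4 * ρ) ^ 2 * Real.pi := by
      field_simp
      ring
    rw [this, Real.sqrt_mul (by positivity), Real.sqrt_sq (by positivity)]
    ring
  rw [volume_pi, lintegral_pi_ofReal_prod volume
    (fun i t => Real.exp (-(t - a i) ^ 2 / (16 * ρ ^ 2))) hint (fun _ _ => (Real.exp_pos _).le)]
  simp_rw [hval]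
  rw [Finset.prod_const, Finset.card_univ, Fintype.card_fin, ← ENNReal.ofReal_pow (by positivity)]

lemma measure_regOne_le {d B : ℕ} (x0 : E d) (ρ : ℝ) (hρ : 0 < ρ) (c : E d) (hc : ‖c‖ ≤ 1) :
    ((gam d B).prod (volume : Measure (Fin B → ℝ))) (regOne x0 ρ c)
      ≤ ENNReal.ofReal ((11 * ρ) ^ B) := by
  have hprob : IsProbabilityMeasure (gam d B) := by unfold gam; infer_instance
  have hpt : ∀ p : (Fin B → E d) × (Fin B → ℝ),
      (regOne x0 ρ c).indicator (fun _ => (1 : ℝ≥0∞)) p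
        ≤ ENNReal.ofReal (∏ i, Real.exp ((⟪p.1 i, c⟫ : ℝ) ^ 2 / 4)) *
          ENNReal.ofReal (∏ i, Real.exp (-(p.2 i - ⟪p.1 i, x0⟫) ^ 2 / (16 * ρ ^ 2))) := by
    intro p
    by_cases hp : p ∈ regOne x0 ρ c
    · rw [Set.indicator_of_mem hp, ← ENNReal.ofReal_mul
        (Finset.prod_nonneg fun _ _ => (Real.exp_pos _).le), ← Real.exp_sum, ← Real.exp_sum,
        ← Real.exp_add]
      rw [← ENNReal.ofReal_one]
      refine ENNReal.ofReal_le_ofReal (Real.one_le_exp ?_)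
      have h : ∑ i, (p.2 i - ⟪p.1 i, x0⟫) ^ 2 ≤ 4 * ρ ^ 2 * ∑ i, (⟪p.1 i, c⟫ : ℝ) ^ 2 := hp
      have e1 : ∑ i, (⟪p.1 i, c⟫ : ℝ) ^ 2 / 4 = (∑ i, (⟪p.1 i, c⟫ : ℝ) ^ 2) / 4 :=
        (Finset.sum_div _ _ _).symm
      have e2 : ∑ i, -(p.2 i - ⟪p.1 i, x0⟫) ^ 2 / (16 * ρ ^ 2)
          = -((∑ i, (p.2 i - ⟪p.1 i, x0⟫) ^ 2) / (16 * ρ ^ 2)) := by
        rw [Finset.sum_div, ← Finset.sum_neg_distrib]
        refine Finset.sum_congr rfl fun i _ => ?_
        ring
      rw [e1, e2]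
      have h3 : (∑ i, (p.2 i - ⟪p.1 i, x0⟫) ^ 2) / (16 * ρ ^ 2)
          ≤ (4 * ρ ^ 2 * ∑ i, (⟪p.1 i, c⟫ : ℝ) ^ 2) / (16 * ρ ^ 2) := by gcongr
      have h4 : (4 * ρ ^ 2 * ∑ i, (⟪p.1 i, c⟫ : ℝ) ^ 2) / (16 * ρ ^ 2)
          = (∑ i, (⟪p.1 i, c⟫ : ℝ) ^ 2) / 4 := by
        field_simp
        ring
      linarith
    · rw [Set.indicator_of_notMem hp]
      exact zero_le
  calc ((gam d B).prod (volume : Measure (Fin B → ℝ))) (regOne x0 ρ c)
      = ∫⁻ p, (regOne x0 ρ c).indicator (fun _ => (1 : ℝ≥0∞)) p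
          ∂((gam d B).prod (volume : Measure (Fin B → ℝ))) := by
        rw [lintegral_indicator (measurableSet_regOne x0 ρ c)]
        simp
    _ ≤ ∫⁻ p, ENNReal.ofReal (∏ i, Real.exp ((⟪p.1 i, c⟫ : ℝ) ^ 2 / 4)) *
          ENNReal.ofReal (∏ i, Real.exp (-(p.2 i - ⟪p.1 i, x0⟫) ^ 2 / (16 * ρ ^ 2)))
          ∂((gam d B).prod (volume : Measure (Fin B → ℝ))) := lintegral_mono hpt
    _ = ∫⁻ X : Fin B → E d, (∫⁻ y : Fin B → ℝ,
          ENNReal.ofReal (∏ i, Real.exp ((⟪X i, c⟫ : ℝ) ^ 2 / 4)) *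
          ENNReal.ofReal (∏ i, Real.exp (-(y i - ⟪X i, x0⟫) ^ 2 / (16 * ρ ^ 2))) ∂volume)
          ∂(gam d B) := by
        rw [lintegral_prod]
        refine Measurable.aemeasurable ?_
        have h1 : Continuous fun p : (Fin B → E d) × (Fin B → ℝ) =>
            ∏ i, Real.exp ((⟪p.1 i, c⟫ : ℝ) ^ 2 / 4) := by fun_prop
        have h2 : Continuous fun p : (Fin B → E d) × (Fin B → ℝ) =>
            ∏ i, Real.exp (-(p.2 i - ⟪p.1 i, x0⟫) ^ 2 / (16 * ρ ^ 2)) := by fun_prop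
        exact h1.measurable.ennreal_ofReal.mul h2.measurable.ennreal_ofReal
    _ = ∫⁻ X : Fin B → E d, ENNReal.ofReal (∏ i, Real.exp ((⟪X i, c⟫ : ℝ) ^ 2 / 4)) *
          ENNReal.ofReal ((4 * √Real.pi * ρ) ^ B) ∂(gam d B) := by
        refine lintegral_congr fun X => ?_
        rw [lintegral_const_mul']
        · rw [lintegral_exp_y (fun i => (⟪X i, x0⟫ : ℝ)) ρ hρ]
        · exact ENNReal.ofReal_ne_top
    _ = (∫⁻ X, ENNReal.ofReal (∏ i, Real.exp ((⟪X i, c⟫ : ℝ) ^ 2 / 4)) ∂(gam d B)) *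
          ENNReal.ofReal ((4 * √Real.pi * ρ) ^ B) := by
        rw [lintegral_mul_const' _ _ ENNReal.ofReal_ne_top]
    _ ≤ ENNReal.ofReal (√2 ^ B) * ENNReal.ofReal ((4 * √Real.pi * ρ) ^ B) := by
        gcongr
        exact lintegral_exp_sumsq c hc
    _ = ENNReal.ofReal ((√2 * (4 * √Real.pi * ρ)) ^ B) := by
        rw [← ENNReal.ofReal_mul (by positivity), ← mul_pow]
    _ ≤ ENNReal.ofReal ((11 * ρ) ^ B) := by
        refine ENNReal.ofReal_le_ofReal (pow_le_pow_left₀ (by positivity) ?_ _)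
        have h1 : √2 * √Real.pi ≤ 11 / 4 := by
          rw [← Real.sqrt_mul (by norm_num)]
          apply Real.sqrt_le_iff.2
          refine ⟨by norm_num, ?_⟩
          have := Real.pi_lt_d2
          norm_num
          linarith
        calc √2 * (4 * √Real.pi * ρ) = 4 * ρ * (√2 * √Real.pi) := by ring
          _ ≤ 4 * ρ * (11 / 4) := by gcongr
          _ = 11 * ρ := by ring

/-- (B) A measurable region of measure `≤ 5 ^ d (11 ρ) ^ B` containing `(X, Xs)` for all `s` in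
the closed ball. -/
theorem exists_region (d B : ℕ) (x0 : E d) (ρ : ℝ) (hρ : 0 < ρ) :
    ∃ Reg : Set ((Fin B → E d) × (Fin B → ℝ)), MeasurableSet Reg ∧
      (∀ (X : Fin B → E d) (s : E d), s ∈ Metric.closedBall x0 ρ →
        (X, fun i => (inner ℝ (X i) s : ℝ)) ∈ Reg) ∧
      ((gam d B).prod (volume : Measure (Fin B → ℝ))) Reg
        ≤ ENNReal.ofReal (5 ^ d * (11 * ρ) ^ B) := by
  classical
  obtain ⟨N, hcard, hN1, hN⟩ := exists_half_net d
  refine ⟨⋃ c ∈ N, regOne x0 ρ c, ?_, ?_, ?_⟩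
  · exact Finset.measurableSet_biUnion _ fun c _ => measurableSet_regOne x0 ρ c
  · intro X s hs
    obtain ⟨c, hc, hctrl⟩ := exists_net_ctrl N hN X ρ hρ
    refine Set.mem_iUnion₂.2 ⟨c, hc, ?_⟩
    have hsn : ‖s - x0‖ ≤ ρ := by
      rw [← dist_eq_norm]
      exact Metric.mem_closedBall.1 hs
    have h := hctrl (s - x0) hsn
    simp only [inner_sub_right] at h
    exact h
  · calc ((gam d B).prod (volume : Measure (Fin B → ℝ))) (⋃ c ∈ N, regOne x0 ρ c)
        ≤ ∑ c ∈ N, ((gam d B).prod (volume : Measure (Fin B → ℝ))) (regOne x0 ρ c) :=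
          measure_biUnion_finset_le _ _
      _ ≤ ∑ _c ∈ N, ENNReal.ofReal ((11 * ρ) ^ B) :=
          Finset.sum_le_sum fun c hc => measure_regOne_le x0 ρ hρ c (hN1 c hc)
      _ = (N.card : ℝ≥0∞) * ENNReal.ofReal ((11 * ρ) ^ B) := by
          rw [Finset.sum_const, nsmul_eq_mul]
      _ ≤ ENNReal.ofReal (5 ^ d) * ENNReal.ofReal ((11 * ρ) ^ B) := by
          gcongr
          rw [← ENNReal.ofReal_natCast]
          refine ENNReal.ofReal_le_ofReal ?_
          exact_mod_cast hcard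
      _ = ENNReal.ofReal (5 ^ d * (11 * ρ) ^ B) := by
          rw [← ENNReal.ofReal_mul (by positivity)]

end Crest.Agent.R322
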