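import Mathlib

/-!
# R322: the numerics of the final assembly
-/

set_option autoImplicit false

namespace Crest.Agent.R322

lemma add_two_le_three_pow (B : ℕ) (hB : 1 ≤ B) : B + 2 ≤ 3 ^ B := by
  induction B, hB using Nat.le_induction with
  | base => norm_num
  | succ n hn ih => rw [pow_succ]; omega

/-- Pure numerics: from the block recursion bound to the sample lower bound. -/
theorem numerics (A C1 C2 : ℝ) (hA : 0 < A) (hC1 : 1 ≤ C1) (hC2 : 1 ≤ C2) :
    ∃ c : ℝ, 0 < c ∧ ∀ d : ℕ, 16 ≤ d → ∀ M T : ℕ, (M : ℝ) ≤ A * (d : ℝ) ^ 2 →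
      ∀ ε : ℝ, 0 < ε → ε ≤ 1 / 10 → (d : ℝ) / 8 ≤ T →
      (∀ K : ℕ, T ≤ K * (d / 8) →
        2 / 3 ≤ C1 ^ d * ε ^ (d - 1 - 2 * (d / 8)) *
          (C2 ^ d * ((2 : ℝ) ^ M * (((d / 8 : ℕ) : ℝ) + 2)) ^ ((1 : ℝ) / ((d / 8 : ℕ) : ℝ))) ^ K) →
      c * d * Real.log (1 / ε) ≤ T := by
  set C3 : ℝ := Real.log C2 + 16 * A * Real.log 2 + Real.log 3 with hC3
  have hl2 : 0 < Real.log 2 := Real.log_pos (by norm_num)
  have hl3 : 0 < Real.log 3 := Real.log_pos (by norm_num)
  have hlC1 : 0 ≤ Real.log C1 := Real.log_nonneg hC1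
  have hlC2 : 0 ≤ Real.log C2 := Real.log_nonneg hC2
  have hC3pos : 0 < C3 := by positivity
  set D : ℝ := 2 * (8 * Real.log C1 + 24 * C3 + 8) with hD
  have hDpos : 0 < D := by positivity
  refine ⟨1 / D, by positivity, ?_⟩
  intro d hd M T hM ε hε hε1 hT H
  set B : ℕ := d / 8 with hB
  have hB2 : 2 ≤ B := by omega
  have hBpos : (0 : ℝ) < B := by exact_mod_cast (by omega : 0 < B)
  have hdpos : (0 : ℝ) < d := by exact_mod_cast (by omega : 0 < d)
  have hd16 : (16 : ℝ) ≤ d := by exact_mod_cast hd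
  have hBd : (d : ℝ) ≤ 16 * B := by
    have : d ≤ 16 * B := by omega
    exact_mod_cast this
  have hBd8 : 8 * (B : ℝ) ≤ d := by
    have : 8 * B ≤ d := by omega
    exact_mod_cast this
  have hTpos : (0 : ℝ) < T := lt_of_lt_of_le (by positivity) hT
  -- the number of blocks
  set K : ℕ := T / B + 1 with hK
  have hKB : T ≤ K * B := by
    have := Nat.div_add_mod T B
    have h2 := Nat.mod_lt T (by omega : 0 < B)
    rw [hK]
    nlinarith
  have hKle : (K : ℝ) ≤ 24 * T / d := by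
    have h1 : ((T / B : ℕ) : ℝ) ≤ (T : ℝ) / B := Nat.cast_div_le
    have h2 : (T : ℝ) / B ≤ 16 * T / d := by
      rw [div_le_div_iff₀ hBpos hdpos]
      nlinarith
    have h3 : (1 : ℝ) ≤ 8 * T / d := by
      rw [le_div_iff₀ hdpos]; linarith
    have h4 : (K : ℝ) = ((T / B : ℕ) : ℝ) + 1 := by rw [hK]; push_cast; ring
    calc (K : ℝ) = ((T / B : ℕ) : ℝ) + 1 := h4
      _ ≤ 16 * T / d + 8 * T / d := by linarith
      _ = 24 * T / d := by ring
  have key := H K hKB
  -- take logarithms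
  have hlε : 0 < Real.log (1 / ε) := by
    apply Real.log_pos
    rw [lt_div_iff₀ hε]
    linarith
  have hpos1 : 0 < (2 : ℝ) ^ M * ((B : ℝ) + 2) := by positivity
  have hpow : 0 < ((2 : ℝ) ^ M * ((B : ℝ) + 2)) ^ ((1 : ℝ) / (B : ℝ)) := Real.rpow_pos_of_pos hpos1 _
  have hlog := Real.log_le_log (by norm_num) key
  have hC1pos : 0 < C1 := by linarith
  have hC2pos : 0 < C2 := by linarith
  rw [Real.log_mul (by positivity) (by positivity), Real.log_mul (by positivity) (by positivity),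
    Real.log_pow, Real.log_pow, Real.log_pow, Real.log_mul (by positivity) hpow.ne', Real.log_pow,
    Real.log_rpow hpos1, Real.log_mul (by positivity) (by positivity), Real.log_pow] at hlog
  have hlogε : Real.log ε = - Real.log (1 / ε) := by
    rw [one_div, Real.log_inv]; ring
  rw [hlogε] at hlog
  -- bound the block factor
  have hBlog : Real.log ((B : ℝ) + 2) ≤ B * Real.log 3 := by
    rw [← Real.log_pow]
    apply Real.log_le_log (by positivity)
    have := add_two_le_three_pow B (by omega)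
    exact_mod_cast this
  have hdiv : (1 : ℝ) / B * (M * Real.log 2 + Real.log ((B : ℝ) + 2)) ≤
      16 * A * d * Real.log 2 + Real.log 3 := by
    have h1 : (1 : ℝ) / B * Real.log ((B : ℝ) + 2) ≤ Real.log 3 := by
      rw [one_div, inv_mul_le_iff₀ hBpos]
      exact hBlog
    have h2 : (1 : ℝ) / B * M ≤ 16 * A * d := by
      rw [one_div, inv_mul_le_iff₀ hBpos]
      calc (M : ℝ) ≤ A * (d : ℝ) ^ 2 := hM
        _ = A * d * d := by ring
        _ ≤ A * d * (16 * B) := by
            apply mul_le_mul_of_nonneg_left hBd; positivity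
        _ = B * (16 * A * d) := by ring
    have h3 : (1 : ℝ) / B * M * Real.log 2 ≤ 16 * A * d * Real.log 2 :=
      mul_le_mul_of_nonneg_right h2 hl2.le
    calc (1 : ℝ) / B * (M * Real.log 2 + Real.log ((B : ℝ) + 2))
        = (1 : ℝ) / B * M * Real.log 2 + (1 : ℝ) / B * Real.log ((B : ℝ) + 2) := by ring
      _ ≤ _ := by linarith
  have hblock : d * Real.log C2 + (1 : ℝ) / B * (M * Real.log 2 + Real.log ((B : ℝ) + 2)) ≤
      d * C3 := by
    have h3 : Real.log 3 ≤ d * Real.log 3 := by nlinarith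
    calc d * Real.log C2 + (1 : ℝ) / B * (M * Real.log 2 + Real.log ((B : ℝ) + 2))
        ≤ d * Real.log C2 + (16 * A * d * Real.log 2 + d * Real.log 3) := by linarith
      _ = d * C3 := by rw [hC3]; ring
  have hK0 : (0 : ℝ) ≤ K := Nat.cast_nonneg K
  have hKC : (K : ℝ) * (d * Real.log C2 +
      (1 : ℝ) / B * (M * Real.log 2 + Real.log ((B : ℝ) + 2))) ≤ 24 * T * C3 := by
    calc (K : ℝ) * (d * Real.log C2 +
          (1 : ℝ) / B * (M * Real.log 2 + Real.log ((B : ℝ) + 2)))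
        ≤ K * (d * C3) := mul_le_mul_of_nonneg_left hblock hK0
      _ ≤ (24 * T / d) * (d * C3) := mul_le_mul_of_nonneg_right hKle (by positivity)
      _ = 24 * T * C3 := by field_simp
  have hexp : (d : ℝ) / 2 ≤ ((d - 1 - 2 * B : ℕ) : ℝ) := by
    have h1 : d ≤ 2 * (d - 1 - 2 * B) := by omega
    have h2 : (d : ℝ) ≤ 2 * ((d - 1 - 2 * B : ℕ) : ℝ) := by exact_mod_cast h1
    linarith
  have hl23 : -1 ≤ Real.log (2 / 3) := by
    have h1 : Real.log (2 / 3) = - Real.log (3 / 2) := by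
      rw [← Real.log_inv]; norm_num
    have h2 : Real.log (3 / 2) ≤ 3 / 2 - 1 := Real.log_le_sub_one_of_pos (by norm_num)
    rw [h1]; linarith
  have hmain : (d : ℝ) / 2 * Real.log (1 / ε) ≤ d * Real.log C1 + 24 * T * C3 + 1 := by
    have h1 : (d : ℝ) / 2 * Real.log (1 / ε) ≤
        ((d - 1 - 2 * B : ℕ) : ℝ) * Real.log (1 / ε) :=
      mul_le_mul_of_nonneg_right hexp hlε.le
    linarith
  have hdT : (d : ℝ) ≤ 8 * T := by linarith
  have hfin : (d : ℝ) / 2 * Real.log (1 / ε) ≤ (8 * Real.log C1 + 24 * C3 + 8) * T := by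
    have h1 : (d : ℝ) * Real.log C1 ≤ 8 * T * Real.log C1 :=
      mul_le_mul_of_nonneg_right hdT hlC1
    have h2 : (1 : ℝ) ≤ 8 * T := by linarith
    calc (d : ℝ) / 2 * Real.log (1 / ε) ≤ d * Real.log C1 + 24 * T * C3 + 1 := hmain
      _ ≤ 8 * T * Real.log C1 + 24 * T * C3 + 8 * T := by linarith
      _ = _ := by ring
  rw [one_div, mul_assoc, inv_mul_le_iff₀ hDpos, hD]
  linarith

end Crest.Agent.R322
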