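import Mathlib
import Crest.Prelude.Def_StreamLearn

/-!
# Facts on the uniform measure on the sphere (used for row 322)
-/

set_option autoImplicit false

open MeasureTheory Set Metric
open scoped Pointwise ENNReal

namespace Crest.Agent.R322

open Crest.StreamLearn

variable {d : ℕ}

/-- the open cone (radii in `(0,1)`) over a subset of the sphere -/
def cone (A : Set (Sphere d)) : Set (E d) := Ioo (0 : ℝ) 1 • ((↑) '' A : Set (E d))

lemma mem_cone {A : Set (Sphere d)} {x : E d} :
    x ∈ cone A ↔ ∃ r : ℝ, 0 < r ∧ r < 1 ∧ ∃ s : Sphere d, s ∈ A ∧ r • (s : E d) = x := by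
  unfold cone
  rw [Set.mem_smul]
  constructor
  · rintro ⟨r, hr, y, ⟨s, hs, rfl⟩, rfl⟩
    exact ⟨r, hr.1, hr.2, s, hs, rfl⟩
  · rintro ⟨r, h0, h1, s, hs, rfl⟩
    exact ⟨r, ⟨h0, h1⟩, s, ⟨s, hs, rfl⟩, rfl⟩

lemma volume_ball_pos : 0 < (volume : Measure (E d)) (ball 0 1) :=
  measure_ball_pos _ _ one_pos

lemma volume_ball_lt_top : (volume : Measure (E d)) (ball 0 1) < ⊤ :=
  measure_ball_lt_top

lemma sphereUniform_apply (hd : 1 ≤ d) {A : Set (Sphere d)} (hA : MeasurableSet A) :
    sphereUniform d A = volume (cone A) / volume (ball (0 : E d) 1) := by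
  unfold sphereUniform
  rw [Measure.smul_apply, Measure.toSphere_apply_univ, Measure.toSphere_apply' _ hA, smul_eq_mul,
    finrank_euclideanSpace, Fintype.card_fin]
  have h0 : (d : ℝ≥0∞) ≠ 0 := by
    simp; omega
  have h1 : (d : ℝ≥0∞) ≠ ⊤ := by simp
  change _ * (_ * volume (cone A)) = _
  rw [ENNReal.mul_inv (Or.inl h0) (Or.inl h1), div_eq_mul_inv]
  calc (d : ℝ≥0∞)⁻¹ * (volume (ball (0 : E d) 1))⁻¹ * (d * volume (cone A))
      = ((d : ℝ≥0∞)⁻¹ * d) * ((volume (ball (0 : E d) 1))⁻¹ * volume (cone A)) := by ring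
    _ = _ := by
      rw [ENNReal.inv_mul_cancel h0 h1, one_mul, mul_comm]

instance sphereUniform_isFinite : IsFiniteMeasure (sphereUniform d) := by
  rcases Nat.eq_zero_or_pos d with h | h
  · subst h
    constructor
    unfold sphereUniform
    have : (volume : Measure (E 0)).toSphere = 0 := by
      rw [Measure.toSphere_eq_zero_iff_finrank]
      simp
    rw [this]
    simp
  · constructor
    rw [sphereUniform_apply h MeasurableSet.univ]
    apply ENNReal.div_lt_top _ (volume_ball_pos).ne'
    refine ((measure_mono ?_).trans_lt (volume_ball_lt_top (d := d))).ne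
    intro x hx
    obtain ⟨r, h0, h1, s, -, rfl⟩ := mem_cone.1 hx
    simp [norm_smul, abs_of_pos h0, h1]

lemma sphereUniform_isProb (hd : 1 ≤ d) : IsProbabilityMeasure (sphereUniform d) := by
  constructor
  unfold sphereUniform
  rw [Measure.smul_apply, smul_eq_mul]
  apply ENNReal.inv_mul_cancel
  · rw [Measure.toSphere_apply_univ, finrank_euclideanSpace, Fintype.card_fin]
    apply mul_ne_zero
    · simp; omega
    · exact (volume_ball_pos).ne'
  · exact measure_ne_top _ _

/-- action of a linear isometry on the sphere -/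
noncomputable def sphMap (R : E d ≃ₗᵢ[ℝ] E d) (s : Sphere d) : Sphere d :=
  ⟨R s, by simp⟩

@[simp] lemma coe_sphMap (R : E d ≃ₗᵢ[ℝ] E d) (s : Sphere d) : (sphMap R s : E d) = R s := rfl

lemma continuous_sphMap (R : E d ≃ₗᵢ[ℝ] E d) : Continuous (sphMap R) := by
  unfold sphMap
  exact Continuous.subtype_mk (R.continuous.comp continuous_subtype_val) _

lemma measurable_sphMap (R : E d ≃ₗᵢ[ℝ] E d) : Measurable (sphMap R) :=
  (continuous_sphMap R).measurable

lemma cone_preimage (R : E d ≃ₗᵢ[ℝ] E d) (A : Set (Sphere d)) :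
    cone (sphMap R ⁻¹' A) = R ⁻¹' cone A := by
  ext x
  simp only [mem_cone, Set.mem_preimage]
  constructor
  · rintro ⟨r, h0, h1, s, hs, rfl⟩
    exact ⟨r, h0, h1, sphMap R s, hs, by simp⟩
  · rintro ⟨r, h0, h1, s, hs, hx⟩
    refine ⟨r, h0, h1, sphMap R.symm s, ?_, ?_⟩
    · have : sphMap R (sphMap R.symm s) = s := by
        apply Subtype.ext; simp
      rwa [this]
    · rw [coe_sphMap, ← map_smul, hx]; simp

/-- `sphereUniform` is invariant under linear isometries -/
lemma sphereUniform_preimage (R : E d ≃ₗᵢ[ℝ] E d) {A : Set (Sphere d)} (hA : MeasurableSet A) :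
    sphereUniform d (sphMap R ⁻¹' A) = sphereUniform d A := by
  rcases Nat.eq_zero_or_pos d with h | h
  · subst h
    have : sphMap R = id := by
      funext s
      apply Subtype.ext
      exact Subsingleton.elim _ _
    rw [this]; rfl
  · rw [sphereUniform_apply h hA, sphereUniform_apply h (measurable_sphMap R hA), cone_preimage]
    congr 1
    exact R.measurePreserving.measure_preimage_emb R.toHomeomorph.measurableEmbedding _

lemma measurePreserving_sphMap (R : E d ≃ₗᵢ[ℝ] E d) :
    MeasurePreserving (sphMap R) (sphereUniform d) (sphereUniform d) :=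
  ⟨measurable_sphMap R, by
    ext A hA
    rw [Measure.map_apply (measurable_sphMap R) hA, sphereUniform_preimage R hA]⟩


/-- Thickening: the part of the closed cone over `A` with radii in `[1-t, 1)` carries at least a
`t`-fraction of the volume of the cone. -/
lemma sphereUniform_thick (hd : 1 ≤ d) {A : Set (Sphere d)} (hA : MeasurableSet A) {t : ℝ}
    (ht0 : 0 < t) (ht1 : t ≤ 1) {B : Set (E d)}
    (hB : ∀ s ∈ A, ∀ r : ℝ, 1 - t ≤ r → r < 1 → r • (s : E d) ∈ B) :
    ENNReal.ofReal t * sphereUniform d A * volume (ball (0 : E d) 1) ≤ volume B := by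
  rw [sphereUniform_apply hd hA]
  have hb0 : volume (ball (0 : E d) 1) ≠ 0 := volume_ball_pos.ne'
  have hb1 : volume (ball (0 : E d) 1) ≠ ⊤ := volume_ball_lt_top.ne
  rw [mul_assoc, ENNReal.div_mul_cancel hb0 hb1]
  -- cone ⊆ (1-t) • cone ∪ B
  have hsub : cone A ⊆ (1 - t) • cone A ∪ B := by
    intro x hx
    obtain ⟨r, h0, h1, s, hs, rfl⟩ := mem_cone.1 hx
    by_cases h : 1 - t ≤ r
    · exact Or.inr (hB s hs r h h1)
    · left
      push Not at h
      have h2 : 0 < 1 - t := h0.trans h
      refine Set.mem_smul_set.2 ⟨(r / (1 - t)) • (s : E d), mem_cone.2 ⟨r / (1 - t), by positivity,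
        by rwa [div_lt_one h2], s, hs, rfl⟩, ?_⟩
      rw [smul_smul, mul_div_cancel₀ _ h2.ne']
  have hfin : volume (cone A) ≠ ⊤ := by
    refine ((measure_mono ?_).trans_lt (volume_ball_lt_top (d := d))).ne
    intro x hx
    obtain ⟨r, h0, h1, s, -, rfl⟩ := mem_cone.1 hx
    simp [norm_smul, abs_of_pos h0, h1]
  have h1 : volume (cone A) ≤ ENNReal.ofReal ((1 - t) ^ d) * volume (cone A) + volume B := by
    calc volume (cone A) ≤ volume ((1 - t) • cone A ∪ B) := measure_mono hsub
      _ ≤ volume ((1 - t) • cone A) + volume B := measure_union_le _ _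
      _ = _ := by
        rw [Measure.addHaar_smul_of_nonneg _ (by linarith), finrank_euclideanSpace,
          Fintype.card_fin]
  -- real computation
  by_cases hBt : volume B = ⊤
  · rw [hBt]; exact le_top
  have h2 : (volume (cone A)).toReal ≤ (1 - t) ^ d * (volume (cone A)).toReal
      + (volume B).toReal := by
    have := ENNReal.toReal_mono (by
      apply ENNReal.add_ne_top.2 ⟨ENNReal.mul_ne_top ENNReal.ofReal_ne_top hfin, hBt⟩) h1
    rwa [ENNReal.toReal_add (ENNReal.mul_ne_top ENNReal.ofReal_ne_top hfin) hBt,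
      ENNReal.toReal_mul, ENNReal.toReal_ofReal (by
        apply pow_nonneg; linarith)] at this
  have h3 : (1 - t) ^ d ≤ 1 - t := by
    calc (1 - t) ^ d ≤ (1 - t) ^ 1 := pow_le_pow_of_le_one (by linarith) (by linarith) hd
      _ = 1 - t := pow_one _
  have h4 : t * (volume (cone A)).toReal ≤ (volume B).toReal := by
    have h5 : (1 - t) ^ d * (volume (cone A)).toReal ≤ (1 - t) * (volume (cone A)).toReal :=
      mul_le_mul_of_nonneg_right h3 ENNReal.toReal_nonneg
    linarith
  rw [← ENNReal.ofReal_toReal hfin, ← ENNReal.ofReal_mul ht0.le, ← ENNReal.ofReal_toReal hBt]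
  exact ENNReal.ofReal_le_ofReal h4

lemma sphereUniform_real_thick (hd : 1 ≤ d) {A : Set (Sphere d)} (hA : MeasurableSet A) {t : ℝ}
    (ht0 : 0 < t) (ht1 : t ≤ 1) {B : Set (E d)} (hBf : volume B ≠ ⊤)
    (hB : ∀ s ∈ A, ∀ r : ℝ, 1 - t ≤ r → r < 1 → r • (s : E d) ∈ B) :
    t * (sphereUniform d).real A * (volume : Measure (E d)).real (ball (0 : E d) 1)
      ≤ (volume : Measure (E d)).real B := by
  have h := ENNReal.toReal_mono hBf (sphereUniform_thick hd hA ht0 ht1 hB)
  rwa [ENNReal.toReal_mul, ENNReal.toReal_mul, ENNReal.toReal_ofReal ht0.le] at h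

/-- cap bound -/
lemma sphereUniform_cap_le (hd : 1 ≤ d) (z : E d) {r : ℝ} (hr0 : 0 < r) (hr1 : r ≤ 1) :
    (sphereUniform d).real {s : Sphere d | dist (s : E d) z ≤ r} ≤ 2 ^ d * r ^ (d - 1) := by
  have hA : MeasurableSet {s : Sphere d | dist (s : E d) z ≤ r} := by
    apply measurableSet_le
    · exact (continuous_subtype_val.dist continuous_const).measurable
    · exact measurable_const
  have hmain := sphereUniform_real_thick hd hA hr0 hr1 (B := closedBall z (2 * r))
    measure_closedBall_lt_top.ne (by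
      intro s hs ρ h1 h2
      simp only [Set.mem_ofPred_eq] at hs
      rw [mem_closedBall]
      have h3 : dist (ρ • (s : E d)) (s : E d) ≤ r := by
        rw [dist_eq_norm]
        have : ρ • (s : E d) - s = (ρ - 1) • (s : E d) := by rw [sub_smul, one_smul]
        rw [this, norm_smul]
        have : ‖(s : E d)‖ = 1 := by simp
        rw [this, mul_one, Real.norm_eq_abs, abs_le]
        constructor <;> linarith
      calc dist (ρ • (s : E d)) z ≤ dist (ρ • (s : E d)) s + dist (s : E d) z := dist_triangle _ _ _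
        _ ≤ 2 * r := by linarith)
  have hvol : (volume : Measure (E d)).real (closedBall z (2 * r))
      = (2 * r) ^ d * (volume : Measure (E d)).real (ball (0 : E d) 1) := by
    rw [Measure.real, Measure.addHaar_closedBall _ _ (by positivity), finrank_euclideanSpace,
      Fintype.card_fin, ENNReal.toReal_mul, ENNReal.toReal_ofReal (by positivity)]
    rfl
  rw [hvol] at hmain
  have hpos : 0 < (volume : Measure (E d)).real (ball (0 : E d) 1) :=
    ENNReal.toReal_pos volume_ball_pos.ne' volume_ball_lt_top.ne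
  have h5 := le_of_mul_le_mul_right hmain hpos
  have h6 : (2 * r) ^ d = r * (2 ^ d * r ^ (d - 1)) := by
    obtain ⟨e, rfl⟩ : ∃ e, d = e + 1 := ⟨d - 1, by omega⟩
    simp only [Nat.add_sub_cancel]
    ring
  rw [h6] at h5
  exact le_of_mul_le_mul_left h5 hr0

end Crest.Agent.R322
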