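import Mathlib
import Crest.Prelude.Def_StreamLearn
import Crest.Agent.R322.Iface
import Crest.Agent.R322.Sphere

/-!
# CapBound and SmallT (row 322)
-/

set_option autoImplicit false
set_option linter.style.haveILetI false

open MeasureTheory Set Metric
open scoped Pointwise ENNReal

namespace Crest.Agent.R322

open Crest.StreamLearn

theorem capBound : CapBound := by
  refine ⟨2, by norm_num, 1, ?_⟩
  intro d hd x r hr
  haveI := sphereUniform_isProb hd
  rw [sphE, Measure.map_apply measurable_subtype_coe measurableSet_closedBall]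
  have h2 : ENNReal.ofReal (2 : ℝ) ^ d * ENNReal.ofReal r ^ (d - 1)
      = ENNReal.ofReal (2 ^ d * r ^ (d - 1)) := by
    rw [ENNReal.ofReal_mul (by positivity), ENNReal.ofReal_pow (by norm_num),
      ENNReal.ofReal_pow hr.le]
  rw [h2]
  by_cases h1 : r ≤ 1
  · rw [← ENNReal.ofReal_toReal (measure_ne_top (sphereUniform d) _)]
    exact ENNReal.ofReal_le_ofReal (sphereUniform_cap_le hd x hr h1)
  · push Not at h1
    calc sphereUniform d _ ≤ 1 := prob_le_one
      _ = ENNReal.ofReal 1 := by simp
      _ ≤ _ := by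
        apply ENNReal.ofReal_le_ofReal
        have : (1 : ℝ) ≤ 2 ^ d := one_le_pow₀ (by norm_num)
        have : (1 : ℝ) ≤ r ^ (d - 1) := one_le_pow₀ h1.le
        nlinarith

section Meas

variable {P S Y τ : Type*} [MeasurableSpace P] [MeasurableSpace Y] [Countable S]

lemma measurable_comp_countable {F : P → S → Y} {g : P → S} (hF : ∀ s, Measurable fun p => F p s)
    (hg : ∀ s, MeasurableSet {p | g p = s}) : Measurable fun p => F p (g p) := by
  intro A hA
  have : (fun p => F p (g p)) ⁻¹' A = ⋃ s, ({p | g p = s} ∩ (fun p => F p s) ⁻¹' A) := by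
    ext p
    simp
  rw [this]
  exact MeasurableSet.iUnion fun s => (hg s).inter (hF s hA)

lemma measurableSet_foldl {step : P → S → τ → S}
    (hstep : ∀ t s q, MeasurableSet {p | step p s t = q}) (l : List τ) :
    ∀ {g : P → S} (_ : ∀ q, MeasurableSet {p | g p = q}) (q : S),
      MeasurableSet {p | l.foldl (step p) (g p) = q} := by
  induction l with
  | nil => intro g hg q; simpa using hg q
  | cons t l ih =>
    intro g hg q
    simp only [List.foldl_cons]
    refine ih (g := fun p => step p (g p) t) ?_ q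
    intro q
    have : {p | step p (g p) t = q} = ⋃ s, ({p | g p = s} ∩ {p | step p s t = q}) := by
      ext p
      simp
    rw [this]
    exact MeasurableSet.iUnion fun s => (hg s).inter (hstep t s q)

end Meas

variable {d T M : ℕ}

lemma measurableSet_run (L : RLearner d T M) (q : L.St × Option ℕ) :
    letI : MeasurableSpace L.Ω := L.mΩ
    MeasurableSet {p : Sphere d × (L.Ω × (Fin T → E d)) | L.run p.2.1 (p.1 : E d) p.2.2 = q} := by
  letI : MeasurableSpace L.Ω := L.mΩ
  letI : Fintype L.St := L.fin
  unfold RLearner.run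
  refine measurableSet_foldl (P := Sphere d × (L.Ω × (Fin T → E d))) (S := L.St × Option ℕ)
    (τ := Fin T)
    (step := fun p st t => if st.2.isSome then st else
      if (L.trans t p.2.1 st.1 (p.2.2 t) (inner ℝ (p.2.2 t) (p.1 : E d))).2
      then ((L.trans t p.2.1 st.1 (p.2.2 t) (inner ℝ (p.2.2 t) (p.1 : E d))).1, some (t.val + 1))
      else ((L.trans t p.2.1 st.1 (p.2.2 t) (inner ℝ (p.2.2 t) (p.1 : E d))).1, none))
    ?_ _ (g := fun p => (L.init p.2.1, if L.stopFirst p.2.1 then some 0 else none)) ?_ q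
  · intro t st q
    by_cases hs : st.2.isSome
    · simp only [hs, if_true]
      exact MeasurableSet.const _
    · simp only [hs, Bool.false_eq_true, if_false]
      have hmeas : Measurable (fun p : Sphere d × (L.Ω × (Fin T → E d)) =>
          ((p.2.1, (p.2.2 t, inner ℝ (p.2.2 t) (p.1 : E d))) : L.Ω × (E d × ℝ))) := by
        refine Measurable.prodMk (measurable_fst.comp measurable_snd) (Measurable.prodMk ?_ ?_)
        · exact (measurable_pi_apply t).comp (measurable_snd.comp measurable_snd)
        · exact Measurable.inner ((measurable_pi_apply t).comp (measurable_snd.comp measurable_snd))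
            (measurable_subtype_coe.comp measurable_fst)
      have h1 : ∀ a : L.St, MeasurableSet {p : Sphere d × (L.Ω × (Fin T → E d)) |
          (L.trans t p.2.1 st.1 (p.2.2 t) (inner ℝ (p.2.2 t) (p.1 : E d))).1 = a} := by
        intro a
        exact hmeas ((L.trans_measurable t st.1).1 (t := {a}) trivial)
      have h2 : MeasurableSet {p : Sphere d × (L.Ω × (Fin T → E d)) |
          (L.trans t p.2.1 st.1 (p.2.2 t) (inner ℝ (p.2.2 t) (p.1 : E d))).2 = true} :=
        hmeas ((L.trans_measurable t st.1).2 (t := {true}) trivial)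
      obtain ⟨a, o⟩ := q
      have : {p : Sphere d × (L.Ω × (Fin T → E d)) |
        (if (L.trans t p.2.1 st.1 (p.2.2 t) (inner ℝ (p.2.2 t) (p.1 : E d))).2 = true
          then ((L.trans t p.2.1 st.1 (p.2.2 t) (inner ℝ (p.2.2 t) (p.1 : E d))).1,
            some (t.val + 1))
          else ((L.trans t p.2.1 st.1 (p.2.2 t) (inner ℝ (p.2.2 t) (p.1 : E d))).1, none))
          = (a, o)} =
          {p | (L.trans t p.2.1 st.1 (p.2.2 t) (inner ℝ (p.2.2 t) (p.1 : E d))).1 = a} ∩
          (({p | (L.trans t p.2.1 st.1 (p.2.2 t) (inner ℝ (p.2.2 t) (p.1 : E d))).2 = true} ∩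
              {_p | some (t.val + 1) = o}) ∪
            ({p | (L.trans t p.2.1 st.1 (p.2.2 t) (inner ℝ (p.2.2 t) (p.1 : E d))).2 = true}ᶜ ∩
              {_p | none = o})) := by
        ext p
        by_cases h : (L.trans t p.2.1 st.1 (p.2.2 t) (inner ℝ (p.2.2 t) (p.1 : E d))).2 = true
        · simp [h]
        · simp [h]
      rw [this]
      exact (h1 a).inter ((h2.inter (MeasurableSet.const _)).union
        (h2.compl.inter (MeasurableSet.const _)))
  · intro q
    obtain ⟨a, o⟩ := q
    have hm : Measurable (fun p : Sphere d × (L.Ω × (Fin T → E d)) => p.2.1) :=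
      measurable_fst.comp measurable_snd
    have h1 : MeasurableSet {p : Sphere d × (L.Ω × (Fin T → E d)) | L.init p.2.1 = a} :=
      hm (L.init_measurable (t := {a}) trivial)
    have h2 : MeasurableSet {p : Sphere d × (L.Ω × (Fin T → E d)) | L.stopFirst p.2.1 = true} :=
      hm (L.stopFirst_measurable (t := {true}) trivial)
    have : {p : Sphere d × (L.Ω × (Fin T → E d)) |
        ((L.init p.2.1, if L.stopFirst p.2.1 = true then some 0 else none) : L.St × Option ℕ)
          = (a, o)} = {p | L.init p.2.1 = a} ∩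
          (({p | L.stopFirst p.2.1 = true} ∩ {_p | some 0 = o}) ∪
            ({p | L.stopFirst p.2.1 = true}ᶜ ∩ {_p | none = o})) := by
      ext p
      by_cases h : L.stopFirst p.2.1 = true
      · simp [h]
      · simp [h]
    rw [this]
    exact h1.inter ((h2.inter (MeasurableSet.const _)).union
        (h2.compl.inter (MeasurableSet.const _)))

lemma measurable_output (L : RLearner d T M) :
    letI : MeasurableSpace L.Ω := L.mΩ
    Measurable fun p : Sphere d × (L.Ω × (Fin T → E d)) => L.output p.2.1 (p.1 : E d) p.2.2 := by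
  letI : MeasurableSpace L.Ω := L.mΩ
  letI : Fintype L.St := L.fin
  unfold RLearner.output
  refine measurable_comp_countable (P := Sphere d × (L.Ω × (Fin T → E d)))
    (S := L.St × Option ℕ) (Y := E d)
    (F := fun p st => L.out (st.2.getD T) p.2.1 st.1)
    (g := fun p => L.run p.2.1 (p.1 : E d) p.2.2) ?_ ?_
  · intro st
    exact (L.out_measurable _ _).comp (measurable_fst.comp measurable_snd)
  · exact measurableSet_run L

lemma measurableSet_success (L : RLearner d T M) (ε : ℝ) :
    letI : MeasurableSpace L.Ω := L.mΩ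
    MeasurableSet {p : Sphere d × (L.Ω × (Fin T → E d)) |
      Real.arccos (inner ℝ (L.output p.2.1 p.1 p.2.2) (p.1 : E d)) ≤ ε} := by
  letI : MeasurableSpace L.Ω := L.mΩ
  refine measurableSet_le ?_ measurable_const
  exact Real.continuous_arccos.measurable.comp
    ((measurable_output L).inner (measurable_subtype_coe.comp measurable_fst))


section Second

lemma integrable_inner_sq (b : E d) :
    Integrable (fun s : Sphere d => (inner ℝ (s : E d) b) ^ 2) (sphereUniform d) := by
  refine Integrable.of_bound (C := ‖b‖ ^ 2) ?_ ?_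
  · exact ((continuous_subtype_val.inner continuous_const).pow 2).aestronglyMeasurable
  · filter_upwards with s
    rw [Real.norm_eq_abs, abs_of_nonneg (sq_nonneg _), ← sq_abs]
    have h := abs_real_inner_le_norm (s : E d) b
    have h1 : ‖(s : E d)‖ = 1 := by simp
    rw [h1, one_mul] at h
    exact pow_le_pow_left₀ (abs_nonneg _) h 2

lemma integral_inner_sq_map (R : E d ≃ₗᵢ[ℝ] E d) (b : E d) :
    ∫ s : Sphere d, (inner ℝ (s : E d) (R b)) ^ 2 ∂(sphereUniform d)
      = ∫ s : Sphere d, (inner ℝ (s : E d) b) ^ 2 ∂(sphereUniform d) := by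
  have hmp := measurePreserving_sphMap R
  conv_lhs => rw [← hmp.map_eq]
  rw [integral_map hmp.measurable.aemeasurable]
  · congr 1
    funext s
    rw [coe_sphMap, LinearIsometryEquiv.inner_map_map]
  · exact ((continuous_subtype_val.inner continuous_const).pow 2).aestronglyMeasurable

lemma integral_inner_sq (hd : 1 ≤ d) {b : E d} (hb : ‖b‖ = 1) :
    ∫ s : Sphere d, (inner ℝ (s : E d) b) ^ 2 ∂(sphereUniform d) = 1 / d := by
  have := sphereUniform_isProb hd
  have key : ∀ b' : E d, ‖b'‖ = 1 →
      ∫ s : Sphere d, (inner ℝ (s : E d) b') ^ 2 ∂(sphereUniform d)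
        = ∫ s : Sphere d, (inner ℝ (s : E d) b) ^ 2 ∂(sphereUniform d) := by
    intro b' hb'
    have h := Submodule.reflection_sub (F := E d) (v := b) (w := b') (by rw [hb, hb'])
    conv_lhs => rw [← h]
    exact integral_inner_sq_map _ _
  have hsum : ∑ i : Fin d, ∫ s : Sphere d,
      (inner ℝ (s : E d) (EuclideanSpace.basisFun (Fin d) ℝ i)) ^ 2 ∂(sphereUniform d) = 1 := by
    rw [← integral_finsetSum]
    · have : ∀ s : Sphere d, ∑ i : Fin d,
          (inner ℝ (s : E d) (EuclideanSpace.basisFun (Fin d) ℝ i)) ^ 2 = 1 := by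
        intro s
        have h := (EuclideanSpace.basisFun (Fin d) ℝ).sum_sq_norm_inner_left (s : E d)
        simp only [Real.norm_eq_abs, sq_abs] at h
        rw [h]
        simp
      rw [integral_congr_ae (Filter.Eventually.of_forall this)]
      simp
    · intro i _
      exact integrable_inner_sq _
  rw [Finset.sum_congr rfl (fun i _ => key _ (by simp))] at hsum
  simp only [Finset.sum_const, Finset.card_univ, Fintype.card_fin, nsmul_eq_mul] at hsum
  have hd' : (d : ℝ) ≠ 0 := by
    have : (0 : ℝ) < d := by exact_mod_cast hd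
    exact this.ne'
  field_simp
  linarith

lemma norm_proj_sq (V : Submodule ℝ (E d)) (s : E d) :
    ‖V.starProjection s‖ ^ 2
      = ∑ i, (inner ℝ s ((stdOrthonormalBasis ℝ V i : V) : E d)) ^ 2 := by
  have h := (stdOrthonormalBasis ℝ V).sum_sq_norm_inner_left (V.orthogonalProjectionOnto s)
  simp only [Real.norm_eq_abs, sq_abs] at h
  have h2 : ‖V.starProjection s‖ = ‖V.orthogonalProjectionOnto s‖ := by
    rw [Submodule.starProjection_apply]; rfl
  rw [h2, ← h]
  refine Finset.sum_congr rfl fun i _ => ?_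
  congr 1
  rw [Submodule.coe_inner]
  rw [← Submodule.starProjection_apply, Submodule.inner_starProjection_left_eq_right]
  rw [Submodule.starProjection_eq_self_iff.2 (Submodule.coe_mem _)]

lemma measureReal_proj_ge (hd : 1 ≤ d) (V : Submodule ℝ (E d)) {τ : ℝ} (hτ : 0 < τ) :
    (sphereUniform d).real {s : Sphere d | τ ≤ ‖V.starProjection (s : E d)‖ ^ 2}
      ≤ (Module.finrank ℝ V : ℝ) / d / τ := by
  have hint : Integrable (fun s : Sphere d => ‖V.starProjection (s : E d)‖ ^ 2)
      (sphereUniform d) := by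
    simp_rw [norm_proj_sq]
    exact integrable_finsetSum _ fun i _ => integrable_inner_sq _
  have h := mul_meas_ge_le_integral_of_nonneg (μ := sphereUniform d)
    (f := fun s : Sphere d => ‖V.starProjection (s : E d)‖ ^ 2)
    (Filter.Eventually.of_forall fun s => by positivity) hint τ
  have h2 : ∫ s : Sphere d, ‖V.starProjection (s : E d)‖ ^ 2 ∂(sphereUniform d)
      = (Module.finrank ℝ V : ℝ) / d := by
    simp_rw [norm_proj_sq]
    rw [integral_finsetSum _ fun i _ => integrable_inner_sq _]
    rw [Finset.sum_congr rfl fun i _ => integral_inner_sq hd (b := ((stdOrthonormalBasis ℝ V i : V) : E d)) ?_]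
    · simp; ring
    · exact (stdOrthonormalBasis ℝ V).norm_eq_one i
  rw [h2] at h
  rw [le_div_iff₀ hτ, mul_comm]
  exact h

end Second

section Reflect

lemma dist_le_of_arccos_le {o s : E d} (ho : ‖o‖ = 1) (hs : ‖s‖ = 1) {ε : ℝ} (hε0 : 0 < ε)
    (hε1 : ε ≤ 1) (h : Real.arccos (inner ℝ o s) ≤ ε) : ‖o - s‖ ≤ ε := by
  have h1 : |inner ℝ o s| ≤ 1 := by
    have := abs_real_inner_le_norm o s
    rwa [ho, hs, one_mul] at this
  have h2 : Real.cos ε ≤ inner ℝ o s := by
    rw [← Real.cos_arccos (abs_le.1 h1).1 (abs_le.1 h1).2]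
    apply Real.cos_le_cos_of_nonneg_of_le_pi (Real.arccos_nonneg _) _ h
    have := Real.pi_gt_three
    linarith
  have h3 := Real.one_sub_sq_div_two_le_cos (x := ε)
  have h4 : ‖o - s‖ ^ 2 ≤ ε ^ 2 := by
    rw [norm_sub_sq_real, ho, hs]
    nlinarith
  exact abs_le_of_sq_le_sq' h4 hε0.le |>.2

lemma run_reflect (L : RLearner d T M) (ω : L.Ω) (xs : Fin T → E d) (V : Submodule ℝ (E d))
    (hV : ∀ t, xs t ∈ V) (s : E d) :
    L.run ω (V.reflection s) xs = L.run ω s xs := by
  have h : ∀ t, inner ℝ (xs t) (V.reflection s) = (inner ℝ (xs t) s : ℝ) := by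
    intro t
    have h1 : V.reflection (xs t) = xs t := Submodule.reflection_mem_subspace_eq_self (hV t)
    conv_lhs => rw [← h1]
    rw [LinearIsometryEquiv.inner_map_map]
  unfold RLearner.run
  simp only [h]

lemma section_le (hd : 1 ≤ d) (L : RLearner d T M) {ε : ℝ} (hε0 : 0 < ε) (hε1 : ε ≤ 1 / 10)
    (ω : L.Ω) (xs : Fin T → E d)
    (hmeas : MeasurableSet {s : Sphere d |
      Real.arccos (inner ℝ (L.output ω s xs) (s : E d)) ≤ ε}) :
    (sphereUniform d).real {s : Sphere d |
      Real.arccos (inner ℝ (L.output ω s xs) (s : E d)) ≤ ε} ≤ 1 / 2 + (T : ℝ) / d := by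
  have hprob := sphereUniform_isProb hd
  set V : Submodule ℝ (E d) := Submodule.span ℝ (Set.range xs) with hVdef
  have hV : ∀ t, xs t ∈ V := fun t => Submodule.subset_span ⟨t, rfl⟩
  have hfin : Module.finrank ℝ V ≤ T := by
    have := finrank_range_le_card (R := ℝ) xs
    simpa [Set.finrank, Fintype.card_fin] using this
  set S : Set (Sphere d) := {s : Sphere d |
      Real.arccos (inner ℝ (L.output ω s xs) (s : E d)) ≤ ε} with hS
  set R : E d ≃ₗᵢ[ℝ] E d := V.reflection with hR
  have hout : ∀ s : E d, ‖L.output ω s xs‖ = 1 := fun s => L.out_unit _ _ _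
  have hSR : S ∩ sphMap R ⁻¹' S ⊆ {s : Sphere d | 9 / 10 ≤ ‖V.starProjection (s : E d)‖ ^ 2} := by
    rintro s ⟨h1, h2⟩
    simp only [hS, Set.mem_ofPred_eq, Set.mem_preimage, coe_sphMap] at h1 h2
    have ho : L.output ω (R s) xs = L.output ω s xs := by
      unfold RLearner.output
      rw [hR, run_reflect L ω xs V hV s]
    rw [ho] at h2
    have h3 := dist_le_of_arccos_le (hout s) (by simp) hε0 (by linarith) h1
    have h4 := dist_le_of_arccos_le (hout s) (by simp) hε0 (by linarith) h2
    have h5 : ‖(s : E d) - R s‖ ≤ 2 * ε := by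
      calc ‖(s : E d) - R s‖ = ‖(L.output ω s xs - R s) - (L.output ω s xs - s)‖ := by
            congr 1; abel
        _ ≤ ‖L.output ω s xs - R s‖ + ‖L.output ω s xs - s‖ := norm_sub_le _ _
        _ ≤ 2 * ε := by linarith
    have h6 : (s : E d) - R s = (2 : ℝ) • ((s : E d) - V.starProjection (s : E d)) := by
      rw [hR, Submodule.reflection_apply, two_smul, two_smul]
      abel
    rw [h6, norm_smul, Real.norm_eq_abs, abs_of_pos (by norm_num : (0 : ℝ) < 2)] at h5
    have h7 : ‖(s : E d) - V.starProjection (s : E d)‖ ≤ ε := by linarith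
    have h8 : ‖(s : E d)‖ ^ 2 = ‖V.starProjection (s : E d)‖ ^ 2
        + ‖(s : E d) - V.starProjection (s : E d)‖ ^ 2 := by
      have horth : inner ℝ (V.starProjection (s : E d)) ((s : E d) - V.starProjection (s : E d))
          = 0 := by
        have := V.starProjection_inner_eq_zero (s : E d) (V.starProjection (s : E d)) (by
          exact V.starProjection_apply_mem _)
        rw [real_inner_comm]; exact this
      have := norm_add_sq_real (V.starProjection (s : E d)) ((s : E d) - V.starProjection (s : E d))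
      rw [horth] at this
      simpa using this
    have h9 : ‖(s : E d)‖ = 1 := by simp
    rw [h9] at h8
    have h10 : ‖(s : E d) - V.starProjection (s : E d)‖ ^ 2 ≤ ε ^ 2 :=
      pow_le_pow_left₀ (norm_nonneg _) h7 2
    simp only [Set.mem_ofPred_eq]
    nlinarith
  have hmp := measurePreserving_sphMap R
  have h1 : (sphereUniform d).real (sphMap R ⁻¹' S) = (sphereUniform d).real S := by
    rw [Measure.real, Measure.real, hmp.measure_preimage hmeas.nullMeasurableSet]
  have h2 := measureReal_union_add_inter (μ := sphereUniform d) (s := S) (t := sphMap R ⁻¹' S)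
    (hmp.measurable hmeas)
  have h3 : (sphereUniform d).real (S ∪ sphMap R ⁻¹' S) ≤ 1 := measureReal_le_one
  have h4 : (sphereUniform d).real (S ∩ sphMap R ⁻¹' S) ≤ (T : ℝ) / d / (9 / 10) := by
    calc (sphereUniform d).real (S ∩ sphMap R ⁻¹' S)
        ≤ (sphereUniform d).real {s : Sphere d | 9 / 10 ≤ ‖V.starProjection (s : E d)‖ ^ 2} :=
          measureReal_mono hSR
      _ ≤ (Module.finrank ℝ V : ℝ) / d / (9 / 10) := measureReal_proj_ge hd V (by norm_num)
      _ ≤ _ := by
        have : (Module.finrank ℝ V : ℝ) ≤ T := by exact_mod_cast hfin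
        gcongr
  rw [h1] at h2
  have h5 : (0 : ℝ) ≤ (T : ℝ) / d := by positivity
  have h6 : (T : ℝ) / d / (9 / 10) ≤ 2 * ((T : ℝ) / d) := by
    rw [div_le_iff₀ (by norm_num)]
    linarith
  linarith

theorem smallT' (hd : 1 ≤ d) (L : RLearner d T M) {ε : ℝ} (hε0 : 0 < ε) (hε1 : ε ≤ 1 / 10) :
    L.successProb ε ≤ 1 / 2 + (T : ℝ) / d := by
  have hprob := sphereUniform_isProb hd
  letI : MeasurableSpace L.Ω := L.mΩ
  have hρ : IsProbabilityMeasure L.ρ := L.prob
  have hm := measurableSet_success L ε
  unfold RLearner.successProb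
  rw [Measure.real, Measure.prod_apply_symm hm]
  apply ENNReal.toReal_le_of_le_ofReal (by positivity)
  calc ∫⁻ y : L.Ω × (Fin T → E d), (sphereUniform d) ((fun x => (x, y)) ⁻¹'
          {p : Sphere d × (L.Ω × (Fin T → E d)) |
            Real.arccos (inner ℝ (L.output p.2.1 p.1 p.2.2) (p.1 : E d)) ≤ ε})
        ∂(L.ρ.prod (Measure.pi fun _ : Fin T => ProbabilityTheory.stdGaussian (E d)))
      ≤ ∫⁻ y : L.Ω × (Fin T → E d), ENNReal.ofReal (1 / 2 + (T : ℝ) / d)
        ∂(L.ρ.prod (Measure.pi fun _ : Fin T => ProbabilityTheory.stdGaussian (E d))) := by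
        apply lintegral_mono
        intro y
        have hsec : MeasurableSet {s : Sphere d |
            Real.arccos (inner ℝ (L.output y.1 s y.2) (s : E d)) ≤ ε} :=
          measurable_prodMk_right hm
        have := section_le hd L hε0 hε1 y.1 y.2 hsec
        change sphereUniform d {s : Sphere d |
            Real.arccos (inner ℝ (L.output y.1 s y.2) (s : E d)) ≤ ε} ≤ _
        rw [← ENNReal.ofReal_toReal (measure_ne_top (sphereUniform d) _)]
        exact ENNReal.ofReal_le_ofReal this
    _ = ENNReal.ofReal (1 / 2 + (T : ℝ) / d) := by simp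

theorem smallT : SmallT := by
  refine ⟨1, ?_⟩
  intro d hd M T ε hε0 hε1 L h
  have h1 := smallT' hd L hε0 hε1
  have hd' : (0 : ℝ) < d := by exact_mod_cast hd
  have h2 : (1 : ℝ) / 6 ≤ (T : ℝ) / d := by linarith
  rw [le_div_iff₀ hd'] at h2
  linarith

end Reflect

end Crest.Agent.R322
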