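import Mathlib
import Crest.Prelude.Def_StreamLearn
import Crest.Agent.R322.Iface
import Crest.Agent.R322.SmallT

/-!
# R322: abstract unrolling over blocks (helper322)
-/

set_option autoImplicit false

open MeasureTheory Set Metric
open scoped ENNReal

namespace Crest.Agent.R322.Un

open Crest.StreamLearn

variable {d : ℕ} {Q : Type}

/-- run one block of `B` samples starting at time `t` -/
def runB (B : ℕ) (g : ℕ → Q → E d → ℝ → Q) (t : ℕ) (q : Q) (X : Fin B → E d) (Y : Fin B → ℝ) : Q :=
  (List.finRange B).foldl (fun q (b : Fin B) => g (t + (b : ℕ)) q (X b) (Y b)) q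

/-- run `K` blocks -/
noncomputable def runK (B : ℕ) (g : ℕ → Q → E d → ℝ → Q) :
    (K : ℕ) → (t : ℕ) → (Fin K → Fin B → E d) → E d → Q → Q
  | 0, _, _, _, q => q
  | K + 1, t, X, s, q =>
      runK B g K (t + B) (fun k => X k.succ) s (runB B g t q (X 0) (fun b => inner ℝ (X 0 b) s))

/-- measurability of the step map -/
def GMeas (g : ℕ → Q → E d → ℝ → Q) : Prop :=
  ∀ (t : ℕ) (q q' : Q), MeasurableSet {p : E d × ℝ | g t q p.1 p.2 = q'}

lemma measurable_runB [Countable Q] {B : ℕ} {g : ℕ → Q → E d → ℝ → Q} (hg : GMeas g) (t : ℕ)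
    (q q' : Q) : MeasurableSet {p : (Fin B → E d) × (Fin B → ℝ) | runB B g t q p.1 p.2 = q'} := by
  unfold runB
  refine measurableSet_foldl (P := (Fin B → E d) × (Fin B → ℝ)) (S := Q) (τ := Fin B)
    (step := fun p q (b : Fin B) => g (t + (b : ℕ)) q (p.1 b) (p.2 b)) ?_ _ (g := fun _ => q) ?_ q'
  · intro b s q''
    have hm : Measurable (fun p : (Fin B → E d) × (Fin B → ℝ) => ((p.1 b, p.2 b) : E d × ℝ)) :=
      ((measurable_pi_apply b).comp measurable_fst).prodMk
        ((measurable_pi_apply b).comp measurable_snd)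
    exact hm (hg (t + (b : ℕ)) s q'')
  · intro q''
    exact MeasurableSet.const _

lemma measurable_inner_block (B : ℕ) :
    Measurable (fun p : (Fin B → E d) × E d =>
      ((p.1, fun b => inner ℝ (p.1 b) p.2) : (Fin B → E d) × (Fin B → ℝ))) := by
  refine measurable_fst.prodMk (measurable_pi_lambda _ fun b => ?_)
  exact Measurable.inner ((measurable_pi_apply b).comp measurable_fst) measurable_snd

lemma measurable_runB' [Countable Q] {B : ℕ} {g : ℕ → Q → E d → ℝ → Q} (hg : GMeas g) (t : ℕ)
    (q q' : Q) : MeasurableSet {p : (Fin B → E d) × E d |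
      runB B g t q p.1 (fun b => inner ℝ (p.1 b) p.2) = q'} :=
  measurable_inner_block B (measurable_runB hg t q q')

lemma measurable_runK [Countable Q] {B : ℕ} {g : ℕ → Q → E d → ℝ → Q} (hg : GMeas g) (K : ℕ) :
    ∀ (t : ℕ) (q q' : Q), MeasurableSet {p : (Fin K → Fin B → E d) × E d |
      runK B g K t p.1 p.2 q = q'} := by
  induction K with
  | zero => intro t q q'; simp only [runK]; exact MeasurableSet.const _
  | succ K ih =>
    intro t q q'
    have : {p : (Fin (K + 1) → Fin B → E d) × E d | runK B g (K + 1) t p.1 p.2 q = q'} =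
        ⋃ q1 : Q, ((fun p : (Fin (K + 1) → Fin B → E d) × E d => (p.1 0, p.2)) ⁻¹'
            {p : (Fin B → E d) × E d | runB B g t q p.1 (fun b => inner ℝ (p.1 b) p.2) = q1} ∩
          (fun p : (Fin (K + 1) → Fin B → E d) × E d => ((fun k : Fin K => p.1 k.succ), p.2)) ⁻¹'
            {p : (Fin K → Fin B → E d) × E d | runK B g K (t + B) p.1 p.2 q1 = q'}) := by
      ext p
      simp [runK]
    rw [this]
    refine MeasurableSet.iUnion fun q1 => MeasurableSet.inter ?_ ?_
    · exact (((measurable_pi_apply 0).comp measurable_fst).prodMk measurable_snd)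
        (measurable_runB' hg t q q1)
    · refine Measurable.prodMk (measurable_pi_lambda _ fun k => ?_) measurable_snd (ih _ _ _)
      exact (measurable_pi_apply _).comp measurable_fst

/-- the backward value measures -/
noncomputable def val {J : Type} [Fintype J] (B : ℕ) (g : ℕ → Q → E d → ℝ → Q)
    (enc : ℕ → Q → J) (dec : ℕ → J → Q) (σ : Q → Measure (E d)) (term : Q → Prop)
    [DecidablePred term] : ℕ → ℕ → Q → Measure (E d)
  | 0, _, q => σ q
  | K + 1, t, q => if term q then σ q else
      ∑ j : J, (((gam d B).prod (val B g enc dec σ term K (t + B) (dec t j))).restrict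
        {p | enc t (runB B g t q p.1 (fun b => inner ℝ (p.1 b) p.2)) = j}).map Prod.snd

instance (B : ℕ) : IsProbabilityMeasure (gam d B) := by unfold gam; infer_instance

section

variable {J : Type} [Fintype J] {B : ℕ} {g : ℕ → Q → E d → ℝ → Q}
    {enc : ℕ → Q → J} {dec : ℕ → J → Q} {σ : Q → Measure (E d)} {term : Q → Prop}
    [DecidablePred term]

lemma isFinite_val (hσ : ∀ q, IsFiniteMeasure (σ q)) (K : ℕ) :
    ∀ t q, IsFiniteMeasure (val B g enc dec σ term K t q) := by
  induction K with
  | zero => intro t q; exact hσ q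
  | succ K ih =>
    intro t q
    unfold val
    split_ifs with h
    · exact hσ q
    · have : ∀ j, IsFiniteMeasure
        ((((gam d B).prod (val B g enc dec σ term K (t + B) (dec t j))).restrict
        {p | enc t (runB B g t q p.1 (fun b => inner ℝ (p.1 b) p.2)) = j}).map Prod.snd) := by
        intro j
        have := ih (t + B) (dec t j)
        infer_instance
      refine ⟨?_⟩
      rw [Measure.finsetSum_apply]
      exact ENNReal.sum_lt_top.2 fun j _ => measure_lt_top _ _

lemma measurable_enc [Countable Q] (hg : GMeas g) (t : ℕ) (q : Q) (j : J) :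
    MeasurableSet {p : (Fin B → E d) × (Fin B → ℝ) | enc t (runB B g t q p.1 p.2) = j} := by
  have : {p : (Fin B → E d) × (Fin B → ℝ) | enc t (runB B g t q p.1 p.2) = j} =
      ⋃ q' : {q' : Q // enc t q' = j}, {p | runB B g t q p.1 p.2 = q'} := by
    ext p
    simp
  rw [this]
  exact MeasurableSet.iUnion fun q' => measurable_runB hg t q q'

lemma measurable_enc' [Countable Q] (hg : GMeas g) (t : ℕ) (q : Q) (j : J) :
    MeasurableSet {p : (Fin B → E d) × E d |
      enc t (runB B g t q p.1 (fun b => inner ℝ (p.1 b) p.2)) = j} :=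
  measurable_inner_block B (measurable_enc hg t q j)

lemma val_succ_apply [Countable Q] (hg : GMeas g) (hσ : ∀ q, IsFiniteMeasure (σ q))
    (K t : ℕ) (q : Q) (hq : ¬ term q)
    {A : Set (E d)} (hA : MeasurableSet A) :
    val B g enc dec σ term (K + 1) t q A =
      ∑ j : J, ∫⁻ X, val B g enc dec σ term K (t + B) (dec t j)
        {s | s ∈ A ∧ enc t (runB B g t q X (fun b => inner ℝ (X b) s)) = j} ∂(gam d B) := by
  rw [val, if_neg hq, Measure.finsetSum_apply]
  refine Finset.sum_congr rfl fun j _ => ?_
  have := isFinite_val (B := B) (g := g) (enc := enc) (dec := dec) (term := term) hσ K (t + B)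
    (dec t j)
  rw [Measure.map_apply measurable_snd hA, Measure.restrict_apply (measurable_snd hA),
    Measure.prod_apply ((measurable_snd hA).inter (measurable_enc' hg t q j))]
  rfl

lemma frost_val [Countable Q] (hg : GMeas g) (hσ : ∀ q, IsFiniteMeasure (σ q)) {η : ℕ}
    {κ₀ Λ : ℝ≥0∞} (hΛ : 1 ≤ Λ)
    (hσF : ∀ q, Frost η κ₀ (σ q))
    (hblock : ∀ (κ : ℝ≥0∞) (ν : J → Measure (E d)),
      (∀ j, IsFiniteMeasure (ν j)) → (∀ j, Frost η κ (ν j)) →
      ∀ (F : (Fin B → E d) → (Fin B → ℝ) → J),
      (∀ j, MeasurableSet {p : (Fin B → E d) × (Fin B → ℝ) | F p.1 p.2 = j}) →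
      ∀ (x : E d) (r : ℝ), 0 < r →
        ∑ j, ∫⁻ X, ν j {s | s ∈ Metric.closedBall x r ∧
            F X (fun i => inner ℝ (X i) s) = j} ∂(gam d B)
          ≤ κ * Λ * ENNReal.ofReal r ^ η) (K : ℕ) :
    ∀ t q, Frost η (κ₀ * Λ ^ K) (val B g enc dec σ term K t q) := by
  induction K with
  | zero => intro t q; simpa [val] using hσF q
  | succ K ih =>
    intro t q
    by_cases hq : term q
    · rw [val, if_pos hq]
      intro x r hr
      refine (hσF q x r hr).trans ?_
      gcongr
      calc κ₀ = κ₀ * 1 := (mul_one _).symm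
        _ ≤ κ₀ * Λ ^ (K + 1) := by gcongr; exact one_le_pow₀ hΛ
    · intro x r hr
      rw [val_succ_apply hg hσ K t q hq measurableSet_closedBall]
      have := hblock (κ₀ * Λ ^ K) (fun j => val B g enc dec σ term K (t + B) (dec t j))
        (fun j => isFinite_val hσ K _ _) (fun j => ih _ _)
        (fun X Y => enc t (runB B g t q X Y)) (fun j => measurable_enc hg t q j) x r hr
      refine this.trans (le_of_eq ?_)
      rw [pow_succ]; ring

lemma success_val [Countable Q] (hg : GMeas g) {μ : Measure (E d)} [IsFiniteMeasure μ]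
    {S : Q → Set (E d)} (hS : ∀ q, MeasurableSet (S q)) (hσS : ∀ q, σ q = μ.restrict (S q))
    (hterm : ∀ t q, term q → ∀ X Y, runB B g t q X Y = q)
    (hdec : ∀ t q, ¬ term q → ∀ X Y, dec t (enc t (runB B g t q X Y)) = runB B g t q X Y)
    (K : ℕ) :
    ∀ t q (A : Set (E d)), MeasurableSet A →
      ((Measure.pi fun _ : Fin K => gam d B).prod μ)
        {p | p.2 ∈ A ∧ p.2 ∈ S (runK B g K t p.1 p.2 q)} ≤ val B g enc dec σ term K t q A := by
  have hσ : ∀ q, IsFiniteMeasure (σ q) := fun q => by rw [hσS]; infer_instance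
  have hconst : ∀ (K : ℕ) (q : Q) (A : Set (E d)), MeasurableSet A →
      ((Measure.pi fun _ : Fin K => gam d B).prod μ)
        {p | p.2 ∈ A ∧ p.2 ∈ S q} ≤ σ q A := by
    intro K q A hA
    have : {p : (Fin K → Fin B → E d) × E d | p.2 ∈ A ∧ p.2 ∈ S q} = univ ×ˢ (A ∩ S q) := by
      ext p; simp
    rw [this, Measure.prod_prod, measure_univ, one_mul, hσS, Measure.restrict_apply hA]
  induction K with
  | zero =>
    intro t q A hA
    exact hconst 0 q A hA
  | succ K ih =>
    intro t q A hA
    by_cases hq : term q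
    · have hrun : ∀ (K t : ℕ) (X : Fin K → Fin B → E d) (s : E d), runK B g K t X s q = q := by
        intro K
        induction K with
        | zero => intro t X s; rfl
        | succ K ih2 => intro t X s; rw [runK, hterm t q hq]; exact ih2 _ _ _
      simp only [hrun]
      rw [val, if_pos hq]
      exact hconst (K + 1) q A hA
    · rw [val_succ_apply hg hσ K t q hq hA]
      -- split off the first block
      have hmp := measurePreserving_piFinSuccAbove (fun _ : Fin (K + 1) => gam d B) 0
      have hmp2 := hmp.symm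
      have hmp3 : MeasurePreserving
          (fun p : ((Fin B → E d) × (Fin K → Fin B → E d)) × E d =>
            (((MeasurableEquiv.piFinSuccAbove (fun _ : Fin (K + 1) => Fin B → E d) 0).symm p.1,
              p.2) : (Fin (K + 1) → Fin B → E d) × E d))
          (((gam d B).prod (Measure.pi fun _ : Fin K => gam d B)).prod μ)
          ((Measure.pi fun _ : Fin (K + 1) => gam d B).prod μ) :=
        hmp2.prod (MeasurePreserving.id μ)
      have hmeas : MeasurableSet {p : (Fin (K + 1) → Fin B → E d) × E d |
          p.2 ∈ A ∧ p.2 ∈ S (runK B g (K + 1) t p.1 p.2 q)} := by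
        have : {p : (Fin (K + 1) → Fin B → E d) × E d |
          p.2 ∈ A ∧ p.2 ∈ S (runK B g (K + 1) t p.1 p.2 q)} =
          ⋃ q' : Q, ({p : (Fin (K + 1) → Fin B → E d) × E d | runK B g (K + 1) t p.1 p.2 q = q'} ∩
            Prod.snd ⁻¹' (A ∩ S q')) := by
          ext p
          simp
        rw [this]
        exact MeasurableSet.iUnion fun q' => (measurable_runK hg (K + 1) t q q').inter
          (measurable_snd (hA.inter (hS q')))
      rw [← hmp3.measure_preimage hmeas.nullMeasurableSet]
      have hmp4 : MeasurePreserving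
          (MeasurableEquiv.prodAssoc.symm : (Fin B → E d) × ((Fin K → Fin B → E d) × E d) ≃ᵐ
            ((Fin B → E d) × (Fin K → Fin B → E d)) × E d)
          ((gam d B).prod ((Measure.pi fun _ : Fin K => gam d B).prod μ))
          (((gam d B).prod (Measure.pi fun _ : Fin K => gam d B)).prod μ) :=
        (measurePreserving_prodAssoc (gam d B) (Measure.pi fun _ : Fin K => gam d B) μ).symm
      rw [← hmp4.measure_preimage (hmp3.measurable hmeas).nullMeasurableSet,
        Measure.prod_apply (hmp4.measurable (hmp3.measurable hmeas))]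
      rw [← lintegral_finsetSum]
      · refine lintegral_mono fun X0 => ?_
        refine le_trans (measure_mono (t := ⋃ j : J, {p : (Fin K → Fin B → E d) × E d |
            p.2 ∈ {s | s ∈ A ∧ enc t (runB B g t q X0 (fun b => inner ℝ (X0 b) s)) = j} ∧
            p.2 ∈ S (runK B g K (t + B) p.1 p.2 (dec t j))}) ?_) ?_
        · rintro ⟨X', s⟩ ⟨h1, h2⟩
          simp only [mem_iUnion, mem_ofPred_eq]
          refine ⟨enc t (runB B g t q X0 (fun b => inner ℝ (X0 b) s)), ⟨h1, rfl⟩, ?_⟩
          rw [hdec t q hq]
          exact h2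
        · refine (measure_iUnion_fintype_le _ _).trans ?_
          refine Finset.sum_le_sum fun j _ => ?_
          refine ih (t + B) (dec t j) _ ?_
          exact hA.inter (measurable_prodMk_left (measurable_enc' hg t q j))
      · intro j _
        have := isFinite_val (B := B) (g := g) (enc := enc) (dec := dec) (term := term) hσ K (t + B)
          (dec t j)
        exact measurable_measure_prodMk_left
          ((measurable_snd hA).inter (measurable_enc' hg t q j))

end

end Crest.Agent.R322.Un
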