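import Mathlib
import Crest.Prelude.Def_StreamLearn
import Crest.Agent.R322.Iface
import Crest.Agent.R322.SmallT
import Crest.Agent.R322.Unroll2
import Crest.Agent.R322.Numerics
import Crest.Agent.R322.Fr.Block

/-!
# R322: final assembly (helper322)
-/

set_option autoImplicit false
set_option linter.style.haveILetI false

open MeasureTheory Set Metric
open scoped ENNReal

namespace Crest.Agent.R322.Un

open Crest.StreamLearn

variable {d T M : ℕ}

/-- the step map of a learner with fixed seed -/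
noncomputable def gL (L : RLearner d T M) (ω : L.Ω) (t : ℕ) (q : L.St × Option ℕ) (x : E d)
    (y : ℝ) : L.St × Option ℕ :=
  if q.2.isSome then q else
    if h : t < T then
      if (L.trans ⟨t, h⟩ ω q.1 x y).2 then ((L.trans ⟨t, h⟩ ω q.1 x y).1, some (t + 1))
      else ((L.trans ⟨t, h⟩ ω q.1 x y).1, none)
    else q

lemma gL_term (L : RLearner d T M) (ω : L.Ω) (t : ℕ) (q : L.St × Option ℕ) (hq : q.2.isSome)
    (x : E d) (y : ℝ) : gL L ω t q x y = q := by
  unfold gL; rw [if_pos hq]

lemma gL_late (L : RLearner d T M) (ω : L.Ω) (t : ℕ) (q : L.St × Option ℕ) (ht : T ≤ t)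
    (x : E d) (y : ℝ) : gL L ω t q x y = q := by
  unfold gL
  rw [dif_neg (by omega)]
  simp

lemma gmeas (L : RLearner d T M) (ω : L.Ω) : GMeas (gL L ω) := by
  letI : MeasurableSpace L.Ω := L.mΩ
  intro t q q'
  unfold gL
  by_cases hs : q.2.isSome
  · simp only [hs, if_true]
    exact MeasurableSet.const _
  · simp only [hs, Bool.false_eq_true, if_false]
    by_cases ht : t < T
    · simp only [ht, dif_pos]
      have hmeas : Measurable (fun p : E d × ℝ => ((ω, (p.1, p.2)) : L.Ω × (E d × ℝ))) :=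
        Measurable.prodMk measurable_const (Measurable.prodMk measurable_fst measurable_snd)
      have h1 : ∀ a : L.St, MeasurableSet {p : E d × ℝ |
          (L.trans ⟨t, ht⟩ ω q.1 p.1 p.2).1 = a} := by
        intro a
        exact hmeas ((L.trans_measurable ⟨t, ht⟩ q.1).1 (t := {a}) trivial)
      have h2 : MeasurableSet {p : E d × ℝ |
          (L.trans ⟨t, ht⟩ ω q.1 p.1 p.2).2 = true} :=
        hmeas ((L.trans_measurable ⟨t, ht⟩ q.1).2 (t := {true}) trivial)
      obtain ⟨a, o⟩ := q'
      have : {p : E d × ℝ |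
        (if (L.trans ⟨t, ht⟩ ω q.1 p.1 p.2).2 = true
          then ((L.trans ⟨t, ht⟩ ω q.1 p.1 p.2).1,
            some (t + 1))
          else ((L.trans ⟨t, ht⟩ ω q.1 p.1 p.2).1, none))
          = (a, o)} =
          {p | (L.trans ⟨t, ht⟩ ω q.1 p.1 p.2).1 = a} ∩
          (({p | (L.trans ⟨t, ht⟩ ω q.1 p.1 p.2).2 = true} ∩
              {_p | some (t + 1) = o}) ∪
            ({p | (L.trans ⟨t, ht⟩ ω q.1 p.1 p.2).2 = true}ᶜ ∩
              {_p | none = o})) := by
        ext p
        by_cases h : (L.trans ⟨t, ht⟩ ω q.1 p.1 p.2).2 = true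
        · simp [h]
        · simp [h]
      rw [this]
      exact (h1 a).inter ((h2.inter (MeasurableSet.const _)).union
        (h2.compl.inter (MeasurableSet.const _)))
    · simp only [ht, dif_neg, not_false_eq_true]
      exact MeasurableSet.const _

/-- messages of a block -/
abbrev JB (L : RLearner d T M) (B : ℕ) : Type := L.St × Option (Fin (B + 1))

def encL (L : RLearner d T M) (B : ℕ) (t : ℕ) (q : L.St × Option ℕ) : JB L B :=
  (q.1, q.2.map fun m => ⟨min (m - t) B, by omega⟩)

def decL (L : RLearner d T M) (B : ℕ) (t : ℕ) (j : JB L B) : L.St × Option ℕ :=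
  (j.1, j.2.map fun i : Fin (B + 1) => t + (i : ℕ))

lemma dec_enc (L : RLearner d T M) (B t : ℕ) (q : L.St × Option ℕ)
    (hq : ∀ m, q.2 = some m → t ≤ m ∧ m ≤ t + B) : decL L B t (encL L B t q) = q := by
  obtain ⟨a, o⟩ := q
  cases o with
  | none => simp [decL, encL]
  | some m =>
    have := hq m rfl
    have h2 : t + min (m - t) B = m := by omega
    simp only [decL, encL, Option.map_some, h2]

lemma foldl_term {τ Q : Type} (f : Q → τ → Q) (q : Q) (h : ∀ i, f q i = q) (l : List τ) :
    l.foldl f q = q := by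
  induction l with
  | nil => rfl
  | cons a l ih => rw [List.foldl_cons, h, ih]

lemma foldl_inv {τ Q : Type} (f : Q → τ → Q) (P : Q → Prop) (l : List τ)
    (h : ∀ q i, i ∈ l → P q → P (f q i)) (q : Q) (hq : P q) : P (l.foldl f q) := by
  induction l generalizing q with
  | nil => exact hq
  | cons a l ih =>
    rw [List.foldl_cons]
    exact ih (fun q i hi => h q i (List.mem_cons_of_mem _ hi)) _ (h q a (List.mem_cons_self) hq)

lemma runB_inv (L : RLearner d T M) (ω : L.Ω) (B t : ℕ) (q : L.St × Option ℕ)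
    (hq : ¬ q.2.isSome) (X : Fin B → E d) (Y : Fin B → ℝ) :
    ∀ m, (runB B (gL L ω) t q X Y).2 = some m → t ≤ m ∧ m ≤ t + B := by
  unfold runB
  refine foldl_inv _ (fun q : L.St × Option ℕ => ∀ m, q.2 = some m → t ≤ m ∧ m ≤ t + B) _ ?_ q ?_
  · intro q b _ hP m hm
    unfold gL at hm
    by_cases h1 : q.2.isSome
    · rw [if_pos h1] at hm; exact hP m hm
    · rw [if_neg h1] at hm
      split_ifs at hm with h2 h3
      · have hm' : t + (b : ℕ) + 1 = m := Option.some.inj hm
        have := b.2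
        omega
      · exact hP m hm
  · intro m hm
    simp [hm] at hq

/-- flattening the block run -/
lemma runK_eq_foldl {Q : Type} (B : ℕ) (g : ℕ → Q → E d → ℝ → Q) (s : E d) (x : ℕ → E d)
    (K : ℕ) : ∀ (t : ℕ) (X : Fin K → Fin B → E d) (q : Q),
      (∀ (k : Fin K) (b : Fin B), x (t + (k : ℕ) * B + (b : ℕ)) = X k b) →
      (List.range' t (K * B)).foldl (fun q i => g i q (x i) (inner ℝ (x i) s)) q
        = runK B g K t X s q := by
  induction K with
  | zero => intro t X q _; simp [runK]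
  | succ K ih =>
    intro t X q hx
    have h1 : List.range' t ((K + 1) * B) = List.range' t B ++ List.range' (t + B) (K * B) := by
      rw [List.range'_append_1]
      congr 1
      ring
    rw [h1, List.foldl_append, runK]
    have h2 : (List.range' t B).foldl (fun q i => g i q (x i) (inner ℝ (x i) s)) q
        = runB B g t q (X 0) (fun b => inner ℝ (X 0 b) s) := by
      unfold runB
      have h3 : List.range' t B = (List.finRange B).map (fun b : Fin B => t + (b : ℕ)) := by
        rw [List.range'_eq_map_range, ← List.map_coe_finRange_eq_range, List.map_map]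
        rfl
      rw [h3, List.foldl_map]
      congr 1
      funext q b
      have := hx 0 b
      simp only [Fin.coe_ofNat_eq_mod, Nat.zero_mod, zero_mul, add_zero] at this
      rw [this]
    rw [h2]
    refine ih (t + B) (fun k => X k.succ) _ ?_
    intro k b
    rw [← hx k.succ b]
    congr 1
    simp only [Fin.val_succ]
    ring

/-- the reindexing map -/
def phi (T K B : ℕ) (hB : 0 < B) (hT : T ≤ K * B) (X : Fin K → Fin B → E d) : Fin T → E d :=
  fun i => X ⟨(i : ℕ) / B, (Nat.div_lt_iff_lt_mul hB).2 (lt_of_lt_of_le i.2 hT)⟩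
    ⟨(i : ℕ) % B, Nat.mod_lt _ hB⟩

lemma run_eq (L : RLearner d T M) (ω : L.Ω) (K B : ℕ) (hB : 0 < B) (hT : T ≤ K * B)
    (X : Fin K → Fin B → E d) (s : E d) :
    L.run ω s (phi T K B hB hT X) =
      runK B (gL L ω) K 0 X s (L.init ω, if L.stopFirst ω then some 0 else none) := by
  set x : ℕ → E d := fun i => if h : i < K * B then
    X ⟨i / B, (Nat.div_lt_iff_lt_mul hB).2 h⟩ ⟨i % B, Nat.mod_lt _ hB⟩ else 0 with hx
  rw [← runK_eq_foldl B (gL L ω) s x K 0 X]
  · have h1 : List.range' 0 (K * B) = List.range' 0 T ++ List.range' T (K * B - T) := by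
      have := @List.range'_append_1 0 T (K * B - T)
      rw [zero_add] at this
      rw [this]
      congr 1
      omega
    rw [h1, List.foldl_append]
    have h2 : ∀ q : L.St × Option ℕ, (List.range' T (K * B - T)).foldl
        (fun q i => gL L ω i q (x i) (inner ℝ (x i) s)) q = q := by
      intro q
      refine foldl_inv _ (fun q' => q' = q) _ ?_ q rfl
      intro q' i hi hq'
      rw [List.mem_range'_1] at hi
      rw [gL_late L ω i q' hi.1, hq']
    rw [h2]
    unfold RLearner.run
    rw [← List.range_eq_range', ← List.map_coe_finRange_eq_range, List.foldl_map]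
    congr 1
    funext q i
    unfold gL
    have h3 : x (i : ℕ) = phi T K B hB hT X i := by
      rw [hx]
      simp only
      rw [dif_pos (lt_of_lt_of_le i.2 hT)]
      rfl
    rw [h3]
    by_cases h4 : q.2.isSome
    · rw [if_pos h4, if_pos h4]
    · rw [if_neg h4, if_neg h4, dif_pos i.2]
  · intro k b
    rw [hx]
    simp only [zero_add]
    have h1 : (k : ℕ) * B + b < K * B := by
      have := k.2; have := b.2
      have h : (k : ℕ) + 1 ≤ K := k.2
      calc (k : ℕ) * B + b < (k : ℕ) * B + B := by omega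
        _ = ((k : ℕ) + 1) * B := by ring
        _ ≤ K * B := Nat.mul_le_mul_right _ h
    rw [dif_pos h1]
    have h2 : ((k : ℕ) * B + b) / B = k := by
      rw [add_comm, Nat.add_mul_div_right _ _ hB, Nat.div_eq_of_lt b.2, zero_add]
    have h3 : ((k : ℕ) * B + b) % B = b := by
      rw [add_comm, Nat.add_mul_mod_self_right, Nat.mod_eq_of_lt b.2]
    congr 1
    · congr 1
    · exact Fin.ext h3

lemma measurable_phi (T K B : ℕ) (hB : 0 < B) (hT : T ≤ K * B) :
    Measurable (phi (d := d) T K B hB hT) := by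
  refine measurable_pi_lambda _ fun i => ?_
  exact (measurable_pi_apply _).comp (measurable_pi_apply _)

lemma measurePreserving_phi (T K B : ℕ) (hB : 0 < B) (hT : T ≤ K * B) :
    MeasurePreserving (phi (d := d) T K B hB hT)
      (Measure.pi fun _ : Fin K => gam d B)
      (Measure.pi fun _ : Fin T => ProbabilityTheory.stdGaussian (E d)) := by
  refine ⟨measurable_phi T K B hB hT, ?_⟩
  symm
  refine Measure.pi_eq fun s hs => ?_
  rw [Measure.map_apply (measurable_phi T K B hB hT) (MeasurableSet.univ_pi hs)]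
  set S : ℕ → Set (E d) := fun i => if h : i < T then s ⟨i, h⟩ else univ with hS
  have h1 : phi T K B hB hT ⁻¹' (univ.pi s) =
      univ.pi (fun k : Fin K => univ.pi (fun b : Fin B => S ((b : ℕ) + B * (k : ℕ)))) := by
    ext X
    simp only [mem_preimage, mem_pi, mem_univ, forall_true_left, phi, hS]
    constructor
    · intro h k b
      by_cases hkb : (b : ℕ) + B * (k : ℕ) < T
      · rw [dif_pos hkb]
        have := h ⟨(b : ℕ) + B * (k : ℕ), hkb⟩
        have h2 : ((b : ℕ) + B * (k : ℕ)) / B = k := by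
          rw [Nat.add_mul_div_left _ _ hB, Nat.div_eq_of_lt b.2, zero_add]
        have h3 : ((b : ℕ) + B * (k : ℕ)) % B = b := by
          rw [Nat.add_mul_mod_self_left, Nat.mod_eq_of_lt b.2]
        simp only [h2, h3, Fin.eta] at this
        exact this
      · rw [dif_neg hkb]; trivial
    · intro h i
      have := h ⟨(i : ℕ) / B, (Nat.div_lt_iff_lt_mul hB).2 (lt_of_lt_of_le i.2 hT)⟩
        ⟨(i : ℕ) % B, Nat.mod_lt _ hB⟩
      simp only [Nat.mod_add_div] at this
      rw [dif_pos i.2] at this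
      exact this
  rw [h1, Measure.pi_pi]
  have h2 : ∀ k : Fin K, gam d B (univ.pi (fun b : Fin B => S ((b : ℕ) + B * (k : ℕ)))) =
      ∏ b : Fin B, ProbabilityTheory.stdGaussian (E d) (S ((b : ℕ) + B * (k : ℕ))) := by
    intro k
    rw [gam, Measure.pi_pi]
  simp_rw [h2]
  rw [← Fintype.prod_prod_type'
    (f := fun (k : Fin K) (b : Fin B) =>
      ProbabilityTheory.stdGaussian (E d) (S ((b : ℕ) + B * (k : ℕ))))]
  have h3 : ∏ p : Fin K × Fin B,
      ProbabilityTheory.stdGaussian (E d) (S ((p.2 : ℕ) + B * (p.1 : ℕ))) =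
      ∏ i : Fin (K * B), ProbabilityTheory.stdGaussian (E d) (S (i : ℕ)) := by
    rw [← Equiv.prod_comp finProdFinEquiv]
    rfl
  rw [h3, Fin.prod_univ_eq_prod_range
    (fun i : ℕ => ProbabilityTheory.stdGaussian (E d) (S i)) (K * B)]
  have h4 : K * B = T + (K * B - T) := by omega
  rw [h4, Finset.prod_range_add]
  have h5 : ∏ x ∈ Finset.range (K * B - T), ProbabilityTheory.stdGaussian (E d) (S (T + x)) = 1 := by
    refine Finset.prod_eq_one fun x _ => ?_
    rw [hS]
    simp only
    rw [dif_neg (by omega), measure_univ]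
  rw [h5, mul_one, ← Fin.prod_univ_eq_prod_range
    (fun i : ℕ => ProbabilityTheory.stdGaussian (E d) (S i)) T]
  refine Finset.prod_congr rfl fun i _ => ?_
  rw [hS]
  simp only
  rw [dif_pos i.2]

/-- the output point of a state -/
noncomputable def outQ (L : RLearner d T M) (ω : L.Ω) (q : L.St × Option ℕ) : E d :=
  L.out (q.2.getD T) ω q.1

lemma sphE_isProb (hd : 1 ≤ d) : IsProbabilityMeasure (sphE d) := by
  have := sphereUniform_isProb hd
  exact Measure.isProbabilityMeasure_map measurable_subtype_coe.aemeasurable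

/-- Frostman bound for the terminal measures -/
lemma frost_ball {η : ℕ} (hη : η ≤ d - 1) {C ε : ℝ} (hε : 0 < ε)
    (hcap : ∀ (x : E d) (r : ℝ), 0 < r →
      sphE d (Metric.closedBall x r) ≤ ENNReal.ofReal C ^ d * ENNReal.ofReal r ^ (d - 1))
    (o : E d) :
    Frost η (ENNReal.ofReal C ^ d * ENNReal.ofReal ε ^ (d - 1 - η))
      ((sphE d).restrict (closedBall o ε)) := by
  intro x r hr
  rw [Measure.restrict_apply measurableSet_closedBall]
  by_cases h : r ≤ ε
  · calc sphE d (closedBall x r ∩ closedBall o ε) ≤ sphE d (closedBall x r) :=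
          measure_mono inter_subset_left
      _ ≤ ENNReal.ofReal C ^ d * ENNReal.ofReal r ^ (d - 1) := hcap x r hr
      _ = ENNReal.ofReal C ^ d * ENNReal.ofReal r ^ (d - 1 - η) * ENNReal.ofReal r ^ η := by
          rw [mul_assoc, ← pow_add]
          congr 2
          omega
      _ ≤ _ := by gcongr
  · push Not at h
    calc sphE d (closedBall x r ∩ closedBall o ε) ≤ sphE d (closedBall o ε) :=
          measure_mono inter_subset_right
      _ ≤ ENNReal.ofReal C ^ d * ENNReal.ofReal ε ^ (d - 1) := hcap o ε hε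
      _ = ENNReal.ofReal C ^ d * ENNReal.ofReal ε ^ (d - 1 - η) * ENNReal.ofReal ε ^ η := by
          rw [mul_assoc, ← pow_add]
          congr 2
          omega
      _ ≤ _ := by gcongr

/-- bound of the success probability for a fixed seed -/
lemma section_bound (hd : 16 ≤ d) {C1 C2 ε : ℝ} (hC2 : 1 ≤ C2) (hε : 0 < ε) (hε1 : ε ≤ 1 / 10)
    (hcap : ∀ (x : E d) (r : ℝ), 0 < r →
      sphE d (Metric.closedBall x r) ≤ ENNReal.ofReal C1 ^ d * ENNReal.ofReal r ^ (d - 1))
    (hblock : ∀ (J : Type) [Fintype J] (κ : ℝ≥0∞) (ν : J → Measure (E d)),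
      (∀ j, IsFiniteMeasure (ν j)) → (∀ j, Frost (et d) κ (ν j)) →
      ∀ (F : (Fin (bl d) → E d) → (Fin (bl d) → ℝ) → J),
      (∀ j, MeasurableSet {p : (Fin (bl d) → E d) × (Fin (bl d) → ℝ) | F p.1 p.2 = j}) →
      ∀ (x : E d) (r : ℝ), 0 < r →
        ∑ j, ∫⁻ X, ν j {s | s ∈ Metric.closedBall x r ∧
            F X (fun i => inner ℝ (X i) s) = j} ∂(gam d (bl d))
          ≤ κ * ENNReal.ofReal C2 ^ d * (Fintype.card J : ℝ≥0∞) ^ ((1 : ℝ) / (bl d : ℝ))
              * ENNReal.ofReal r ^ (et d))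
    (L : RLearner d T M) (ω : L.Ω) (K : ℕ) (hK : T ≤ K * bl d)
    (hmeas : MeasurableSet {p : (Fin T → E d) × Sphere d |
      Real.arccos (inner ℝ (L.output ω p.2 p.1) (p.2 : E d)) ≤ ε}) :
    ((Measure.pi fun _ : Fin T => ProbabilityTheory.stdGaussian (E d)).prod (sphereUniform d))
      {p : (Fin T → E d) × Sphere d |
        Real.arccos (inner ℝ (L.output ω p.2 p.1) (p.2 : E d)) ≤ ε} ≤
      ENNReal.ofReal C1 ^ d * ENNReal.ofReal ε ^ (d - 1 - et d) *
        (ENNReal.ofReal C2 ^ d * ((2 : ℝ≥0∞) ^ M * ((bl d : ℝ≥0∞) + 2)) ^ ((1 : ℝ) / (bl d : ℝ))) ^ K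
      := by
  letI : Fintype L.St := L.fin
  have hB : 0 < bl d := by unfold bl; omega
  set B := bl d with hBdef
  have hprob := sphereUniform_isProb (d := d) (by omega)
  have hprob2 := sphE_isProb (d := d) (by omega)
  have hSt : Nonempty L.St := ⟨L.init ω⟩
  have hcardpos : 1 ≤ Fintype.card L.St := Fintype.card_pos
  -- the number of messages
  have hcard : (Fintype.card (JB L B) : ℝ≥0∞) ≤ (2 : ℝ≥0∞) ^ M * ((B : ℝ≥0∞) + 2) := by
    have h1 : Fintype.card (JB L B) = Fintype.card L.St * (B + 2) := by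
      simp [JB, Fintype.card_prod, Fintype.card_option]
    rw [h1]
    have h2 : Fintype.card L.St * (B + 2) ≤ 2 ^ M * (B + 2) := Nat.mul_le_mul_right _ L.card_le
    calc ((Fintype.card L.St * (B + 2) : ℕ) : ℝ≥0∞) ≤ ((2 ^ M * (B + 2) : ℕ) : ℝ≥0∞) := by
          exact_mod_cast h2
      _ = _ := by push_cast; ring
  set N : ℝ≥0∞ := (Fintype.card (JB L B) : ℝ≥0∞) with hN
  set Λ : ℝ≥0∞ := ENNReal.ofReal C2 ^ d * N ^ ((1 : ℝ) / (B : ℝ)) with hΛ
  have hN1 : 1 ≤ N := by
    have : 1 ≤ Fintype.card (JB L B) := Fintype.card_pos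
    rw [hN]
    exact_mod_cast this
  have hC21 : 1 ≤ ENNReal.ofReal C2 := by
    rw [← ENNReal.ofReal_one]; exact ENNReal.ofReal_le_ofReal hC2
  have hΛ1 : 1 ≤ Λ := by
    rw [hΛ]
    refine one_le_mul (one_le_pow₀ hC21) ?_
    exact ENNReal.one_le_rpow hN1 (by positivity)
  set S : L.St × Option ℕ → Set (E d) := fun q => closedBall (outQ L ω q) ε with hSdef
  set σ : L.St × Option ℕ → Measure (E d) := fun q => (sphE d).restrict (S q) with hσdef
  have hσ : ∀ q, IsFiniteMeasure (σ q) := fun q => by rw [hσdef]; infer_instance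
  have hη : et d ≤ d - 1 := by unfold et; omega
  set q0 : L.St × Option ℕ := (L.init ω, if L.stopFirst ω then some 0 else none) with hq0
  have hfrost := frost_val (B := B) (g := gL L ω) (enc := encL L B) (dec := decL L B) (σ := σ)
    (term := fun q => q.2.isSome) (gmeas L ω) hσ (η := et d)
    (κ₀ := ENNReal.ofReal C1 ^ d * ENNReal.ofReal ε ^ (d - 1 - et d)) (Λ := Λ) hΛ1
    (fun q => frost_ball hη hε hcap (outQ L ω q))
    (by
      intro κ ν h1 h2 F hF x r hr
      refine (hblock (JB L B) κ ν h1 h2 F hF x r hr).trans (le_of_eq ?_)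
      rw [hΛ, hN]; ring) K 0 q0 0 1 one_pos
  have hsucc := success_val (B := B) (g := gL L ω) (enc := encL L B) (dec := decL L B) (σ := σ)
    (term := fun q => q.2.isSome) (gmeas L ω) (μ := sphE d) (S := S)
    (fun q => measurableSet_closedBall) (fun q => rfl)
    (fun t q hq X Y => foldl_term _ q (fun i => gL_term L ω _ q hq _ _) _)
    (fun t q hq X Y => dec_enc L B t _ (runB_inv L ω B t q hq X Y)) K 0 q0
    (closedBall 0 1) measurableSet_closedBall
  have hmp1 : MeasurePreserving
      (Prod.map (phi (d := d) T K B hB hK) (id : Sphere d → Sphere d))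
      ((Measure.pi fun _ : Fin K => gam d B).prod (sphereUniform d))
      ((Measure.pi fun _ : Fin T => ProbabilityTheory.stdGaussian (E d)).prod (sphereUniform d)) :=
    (measurePreserving_phi T K B hB hK).prod (MeasurePreserving.id _)
  have hcoe : MeasurePreserving (fun s : Sphere d => (s : E d)) (sphereUniform d) (sphE d) :=
    ⟨measurable_subtype_coe, rfl⟩
  have hmp2 : MeasurePreserving
      (Prod.map (id : (Fin K → Fin B → E d) → (Fin K → Fin B → E d)) (fun s : Sphere d => (s : E d)))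
      ((Measure.pi fun _ : Fin K => gam d B).prod (sphereUniform d))
      ((Measure.pi fun _ : Fin K => gam d B).prod (sphE d)) :=
    (MeasurePreserving.id _).prod hcoe
  have hmeas2 : MeasurableSet {p : (Fin K → Fin B → E d) × E d |
      p.2 ∈ closedBall (0 : E d) 1 ∧ p.2 ∈ S (runK B (gL L ω) K 0 p.1 p.2 q0)} := by
    have : {p : (Fin K → Fin B → E d) × E d |
      p.2 ∈ closedBall (0 : E d) 1 ∧ p.2 ∈ S (runK B (gL L ω) K 0 p.1 p.2 q0)} =
      ⋃ q' : L.St × Option ℕ, ({p : (Fin K → Fin B → E d) × E d |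
        runK B (gL L ω) K 0 p.1 p.2 q0 = q'} ∩
        Prod.snd ⁻¹' (closedBall (0 : E d) 1 ∩ S q')) := by
      ext p
      simp
    rw [this]
    exact MeasurableSet.iUnion fun q' => (measurable_runK (gmeas L ω) K 0 q0 q').inter
      (measurable_snd (measurableSet_closedBall.inter measurableSet_closedBall))
  rw [← hmp1.measure_preimage hmeas.nullMeasurableSet]
  set Bad : Set ((Fin K → Fin B → E d) × E d) := {p : (Fin K → Fin B → E d) × E d |
      p.2 ∈ closedBall (0 : E d) 1 ∧ p.2 ∈ S (runK B (gL L ω) K 0 p.1 p.2 q0)} with hBad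
  set Good : Set ((Fin T → E d) × Sphere d) := {p : (Fin T → E d) × Sphere d |
        Real.arccos (inner ℝ (L.output ω p.2 p.1) (p.2 : E d)) ≤ ε} with hGood
  set μ2 : Measure ((Fin K → Fin B → E d) × Sphere d) :=
    (Measure.pi fun _ : Fin K => gam d B).prod (sphereUniform d) with hμ2
  calc μ2 ((Prod.map (phi (d := d) T K B hB hK) (id : Sphere d → Sphere d)) ⁻¹' Good)
      ≤ μ2 ((Prod.map (id : (Fin K → Fin B → E d) → (Fin K → Fin B → E d))
          (fun s : Sphere d => (s : E d))) ⁻¹' Bad) := by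
        refine measure_mono ?_
        rintro ⟨X, s⟩ h
        simp only [hBad, hGood, mem_preimage, Prod.map_apply, id_eq, mem_ofPred_eq] at h ⊢
        refine ⟨by simp, ?_⟩
        have h1 : L.output ω s (phi T K B hB hK X) =
            outQ L ω (runK B (gL L ω) K 0 X (s : E d) q0) := by
          unfold RLearner.output outQ
          rw [run_eq]
        rw [h1] at h
        have h2 := dist_le_of_arccos_le (L.out_unit _ _ _) (by simp) hε (by linarith) h
        rw [hSdef]
        simp only [mem_closedBall]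
        rw [dist_comm, dist_eq_norm]
        exact h2
    _ = ((Measure.pi fun _ : Fin K => gam d B).prod (sphE d)) Bad :=
        hmp2.measure_preimage hmeas2.nullMeasurableSet
    _ ≤ _ := hsucc
    _ ≤ _ := hfrost
    _ ≤ _ := by
      rw [ENNReal.ofReal_one, one_pow, mul_one, hΛ]
      gcongr

/-- bound of the success probability -/
lemma success_bound (hd : 16 ≤ d) {C1 C2 ε : ℝ} (hC1 : 1 ≤ C1) (hC2 : 1 ≤ C2) (hε : 0 < ε)
    (hε1 : ε ≤ 1 / 10)
    (hcap : ∀ (x : E d) (r : ℝ), 0 < r →
      sphE d (Metric.closedBall x r) ≤ ENNReal.ofReal C1 ^ d * ENNReal.ofReal r ^ (d - 1))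
    (hblock : ∀ (J : Type) [Fintype J] (κ : ℝ≥0∞) (ν : J → Measure (E d)),
      (∀ j, IsFiniteMeasure (ν j)) → (∀ j, Frost (et d) κ (ν j)) →
      ∀ (F : (Fin (bl d) → E d) → (Fin (bl d) → ℝ) → J),
      (∀ j, MeasurableSet {p : (Fin (bl d) → E d) × (Fin (bl d) → ℝ) | F p.1 p.2 = j}) →
      ∀ (x : E d) (r : ℝ), 0 < r →
        ∑ j, ∫⁻ X, ν j {s | s ∈ Metric.closedBall x r ∧
            F X (fun i => inner ℝ (X i) s) = j} ∂(gam d (bl d))
          ≤ κ * ENNReal.ofReal C2 ^ d * (Fintype.card J : ℝ≥0∞) ^ ((1 : ℝ) / (bl d : ℝ))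
              * ENNReal.ofReal r ^ (et d))
    (L : RLearner d T M) (K : ℕ) (hK : T ≤ K * bl d) :
    L.successProb ε ≤ C1 ^ d * ε ^ (d - 1 - et d) *
        (C2 ^ d * ((2 : ℝ) ^ M * ((bl d : ℝ) + 2)) ^ ((1 : ℝ) / (bl d : ℝ))) ^ K := by
  have hprob := sphereUniform_isProb (d := d) (by omega)
  letI : MeasurableSpace L.Ω := L.mΩ
  have hρ : IsProbabilityMeasure L.ρ := L.prob
  have hm := measurableSet_success L ε
  set β : ℝ≥0∞ := ENNReal.ofReal C1 ^ d * ENNReal.ofReal ε ^ (d - 1 - et d) *
        (ENNReal.ofReal C2 ^ d * ((2 : ℝ≥0∞) ^ M * ((bl d : ℝ≥0∞) + 2)) ^ ((1 : ℝ) / (bl d : ℝ))) ^ K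
    with hβ
  have hβreal : β = ENNReal.ofReal (C1 ^ d * ε ^ (d - 1 - et d) *
        (C2 ^ d * ((2 : ℝ) ^ M * ((bl d : ℝ) + 2)) ^ ((1 : ℝ) / (bl d : ℝ))) ^ K) := by
    rw [hβ]
    have h1 : ((2 : ℝ≥0∞) ^ M * ((bl d : ℝ≥0∞) + 2)) =
        ENNReal.ofReal ((2 : ℝ) ^ M * ((bl d : ℝ) + 2)) := by
      rw [ENNReal.ofReal_mul (by positivity), ENNReal.ofReal_pow (by norm_num),
        ENNReal.ofReal_add (by positivity) (by norm_num)]
      simp
    rw [h1, ENNReal.ofReal_rpow_of_nonneg (by positivity) (by positivity),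
      ENNReal.ofReal_mul (by positivity), ENNReal.ofReal_mul (by positivity),
      ENNReal.ofReal_pow (by positivity), ENNReal.ofReal_pow (by positivity),
      ENNReal.ofReal_pow (by positivity), ENNReal.ofReal_mul (by positivity),
      ENNReal.ofReal_pow (by positivity)]
  unfold RLearner.successProb
  rw [Measure.real, Measure.prod_apply_symm hm]
  apply ENNReal.toReal_le_of_le_ofReal (by positivity)
  rw [← hβreal]
  rw [lintegral_prod _ (measurable_measure_prodMk_right hm).aemeasurable]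
  calc ∫⁻ ω : L.Ω, ∫⁻ y : Fin T → E d, (sphereUniform d) ((fun x => (x, (ω, y))) ⁻¹'
          {p : Sphere d × (L.Ω × (Fin T → E d)) |
            Real.arccos (inner ℝ (L.output p.2.1 p.1 p.2.2) (p.1 : E d)) ≤ ε})
        ∂(Measure.pi fun _ : Fin T => ProbabilityTheory.stdGaussian (E d)) ∂L.ρ
      ≤ ∫⁻ _ω : L.Ω, β ∂L.ρ := by
        apply lintegral_mono
        intro ω
        have hsec : MeasurableSet {p : (Fin T → E d) × Sphere d |
            Real.arccos (inner ℝ (L.output ω p.2 p.1) (p.2 : E d)) ≤ ε} := by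
          have hmm : Measurable (fun p : (Fin T → E d) × Sphere d =>
              ((p.2, (ω, p.1)) : Sphere d × (L.Ω × (Fin T → E d)))) :=
            measurable_snd.prodMk (measurable_const.prodMk measurable_fst)
          exact hmm hm
        have h := section_bound hd hC2 hε hε1 hcap hblock L ω K hK hsec
        rw [Measure.prod_apply hsec] at h
        exact h
    _ = β := by simp

/-- the theorem from the four inputs -/
theorem final : ∀ A : ℝ, 0 < A → ∃ c : ℝ, 0 < c ∧ ∃ d₀ : ℕ, ∀ d ≥ d₀, ∀ (M T : ℕ),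
      (M : ℝ) ≤ A * (d : ℝ) ^ 2 → ∀ ε : ℝ, 0 < ε → ε ≤ 1 / 10 →
        ∀ L : Crest.StreamLearn.RLearner d T M,
          2 / 3 ≤ L.successProb ε → c * d * Real.log (1 / ε) ≤ T := by
  intro A hA
  obtain ⟨C2, hC2, d1, hblock⟩ := Fr.blockLemma
  obtain ⟨C1, hC1, d2, hcap⟩ := capBound
  obtain ⟨d3, hsmall⟩ := smallT
  obtain ⟨c, hc, hnum⟩ := numerics A C1 C2 hA hC1 hC2
  refine ⟨c, hc, max (max d1 d2) (max d3 16), ?_⟩
  intro d hd M T hM ε hε hε1 L hL
  have hd1 : d1 ≤ d := le_trans (le_trans (le_max_left _ _) (le_max_left _ _)) hd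
  have hd2 : d2 ≤ d := le_trans (le_trans (le_max_right _ _) (le_max_left _ _)) hd
  have hd3 : d3 ≤ d := le_trans (le_trans (le_max_left _ _) (le_max_right _ _)) hd
  have hd4 : 16 ≤ d := le_trans (le_trans (le_max_right _ _) (le_max_right _ _)) hd
  refine hnum d hd4 M T hM ε hε hε1 (hsmall d hd3 M T ε hε hε1 L hL) ?_
  intro K hK
  exact hL.trans (success_bound hd4 hC1 hC2 hε hε1 (hcap d hd2) (hblock d hd1) L K hK)

end Crest.Agent.R322.Un
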