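import Crest.Agent.R322.FrLearner

set_option autoImplicit false

namespace Crest.Agent.R322

open MeasureTheory Crest.StreamLearn
open scoped ENNReal

lemma measurable_gL' {d T M : ℕ} (L : RLearner d T M) (ε : ℝ) (ω : L.Ω)
    (st : L.St × Option ℕ) : Measurable (gL L ε ω st) := by
  have hS : MeasurableSet {s : E d |
      Real.arccos (inner ℝ (L.out (st.2.getD T) ω st.1) s) ≤ ε} := by
    refine measurableSet_le ?_ measurable_const
    exact Real.continuous_arccos.measurable.comp (measurable_const.inner measurable_id)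
  exact measurable_one.indicator hS

lemma measurable_stepL' {d T M : ℕ} (L : RLearner d T M) (ω : L.Ω)
    (t : ℕ) (st : L.St × Option ℕ) :
    Measurable fun p : E d × ℝ => stepL L ω t st p.1 p.2 := by
  letI := L.mΩ
  have h2 : Measurable fun p : E d × ℝ => (ω, p) := measurable_const.prodMk measurable_id
  exact (measurable_stepL L t st).comp h2

section Learner

variable {d T M : ℕ} (L : RLearner d T M)

lemma stepL_idle (ω : L.Ω) {t : ℕ} (ht : T ≤ t) (st : L.St × Option ℕ) (x : E d) (y : ℝ) :
    stepL L ω t st x y = st := by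
  unfold stepL
  rw [dif_neg (by omega)]

lemma stepL_stopped (ω : L.Ω) (t : ℕ) {st : L.St × Option ℕ} (hst : st.2.isSome = true)
    (x : E d) (y : ℝ) : stepL L ω t st x y = st := by
  unfold stepL
  split_ifs <;> rfl

lemma runY_idle (ω : L.Ω) (n : ℕ) : ∀ {t : ℕ} (_ : T ≤ t) (st : L.St × Option ℕ)
    (X : Fin n → E d) (Y : Fin n → ℝ), runY (stepL L ω) n t st X Y = st := by
  induction n with
  | zero => intro t ht st X Y; rfl
  | succ n ih =>
    intro t ht st X Y
    rw [runY, stepL_idle L ω ht, ih (by omega)]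

lemma runY_stopped (ω : L.Ω) (n : ℕ) : ∀ (t : ℕ) {st : L.St × Option ℕ}
    (_ : st.2.isSome = true) (X : Fin n → E d) (Y : Fin n → ℝ),
    runY (stepL L ω) n t st X Y = st := by
  induction n with
  | zero => intro t st hst X Y; rfl
  | succ n ih =>
    intro t st hst X Y
    rw [runY, stepL_stopped L ω t hst, ih _ hst]

lemma stepL_cases (ω : L.Ω) (t : ℕ) (st : L.St × Option ℕ) (hst : st.2 = none)
    (x : E d) (y : ℝ) : (stepL L ω t st x y).2 = none ∨ (stepL L ω t st x y).2 = some (t + 1) := by
  unfold stepL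
  split_ifs with h1 h2 h3
  · simp [hst] at h2
  · right; rfl
  · left; rfl
  · left; exact hst

lemma runY_range (ω : L.Ω) (n : ℕ) : ∀ (t : ℕ) (st : L.St × Option ℕ)
    (_ : st.2 = none) (X : Fin n → E d) (Y : Fin n → ℝ),
    (runY (stepL L ω) n t st X Y).2 = none ∨
      ∃ k, (runY (stepL L ω) n t st X Y).2 = some k ∧ t < k ∧ k ≤ t + n := by
  induction n with
  | zero => intro t st hst X Y; left; exact hst
  | succ n ih =>
    intro t st hst X Y
    rw [runY]
    rcases stepL_cases L ω t st hst (X 0) (Y 0) with h | h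
    · rcases ih (t + 1) _ h (fun i => X i.succ) (fun i => Y i.succ) with h1 | ⟨k, h1, h2, h3⟩
      · left; exact h1
      · right; exact ⟨k, h1, by omega, by omega⟩
    · right
      rw [runY_stopped L ω n (t + 1) (by rw [h]; rfl)]
      exact ⟨t + 1, h, by omega, by omega⟩

lemma coding (ω : L.Ω) (B t : ℕ) (st : L.St × Option ℕ) :
    ∃ (J : Type) (_ : Fintype J) (enc : L.St × Option ℕ → J) (dec : J → L.St × Option ℕ),
      Fintype.card J ≤ 2 ^ M * (B + 1) ∧
      ∀ X Y, dec (enc (runY (stepL L ω) B t st X Y)) = runY (stepL L ω) B t st X Y := by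
  letI := L.fin
  by_cases hst : st.2.isSome = true
  · refine ⟨Unit, inferInstance, fun _ => (), fun _ => st, ?_, ?_⟩
    · simp only [Fintype.card_unit]
      exact Nat.one_le_iff_ne_zero.2 (by positivity)
    · intro X Y
      rw [runY_stopped L ω B t hst]
  · have hst2 : st.2 = none := by
      cases h : st.2 with
      | none => rfl
      | some k => simp [h] at hst
    refine ⟨L.St × Option (Fin B), inferInstance,
      fun r => (r.1, match r.2 with
        | none => none
        | some k => if h : k - (t + 1) < B then some ⟨k - (t + 1), h⟩ else none),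
      fun j => (j.1, j.2.map fun i => t + 1 + i.val), ?_, ?_⟩
    · rw [Fintype.card_prod, Fintype.card_option, Fintype.card_fin]
      exact Nat.mul_le_mul_right _ L.card_le
    · intro X Y
      rcases runY_range L ω B t st hst2 X Y with h | ⟨k, h, h1, h2⟩
      · ext1
        · rfl
        · simp [h]
      · ext1
        · rfl
        · have h3 : k - (t + 1) < B := by omega
          simp only [h]
          simp only [h3, dite_true, Option.map_some]
          congr 1
          omega

lemma Vf_horizon (ε : ℝ) (ω : L.Ω) (m : ℕ) (s : E d) :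
    Vf (stepL L ω) (gL L ε ω) (T + m) 0 (initL L ω) s
      = Vf (stepL L ω) (gL L ε ω) T 0 (initL L ω) s := by
  rw [Vf_add (stepL L ω) (measurable_stepL' L ω) (gL L ε ω) (measurable_gL' L ε ω)
        T m 0 (initL L ω) s]
  unfold Vf
  refine lintegral_congr fun X => ?_
  have : ∀ X' : Fin m → E d, gL L ε ω (runY (stepL L ω) m (0 + T)
      (runY (stepL L ω) T 0 (initL L ω) X (ms X s)) X' (ms X' s)) s =
      gL L ε ω (runY (stepL L ω) T 0 (initL L ω) X (ms X s)) s := by
    intro X'
    rw [runY_idle L ω m (by omega)]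
  simp_rw [this]
  simp

end Learner

lemma arccos_dist {d : ℕ} (o : E d) (ho : ‖o‖ = 1) (s : E d) (hs : ‖s‖ = 1) (ε : ℝ)
    (hε : ε ≤ 1) (h : Real.arccos (inner ℝ o s) ≤ ε) : s ∈ Metric.closedBall o ε := by
  have hε0 : 0 ≤ ε := (Real.arccos_nonneg _).trans h
  have h1 : -1 ≤ inner ℝ o s := by
    have := abs_real_inner_le_norm o s
    rw [ho, hs] at this
    exact (abs_le.1 (by simpa using this)).1
  have h2 : inner ℝ o s ≤ 1 := by
    have := abs_real_inner_le_norm o s
    rw [ho, hs] at this
    exact (abs_le.1 (by simpa using this)).2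
  have h3 : Real.cos ε ≤ inner ℝ o s := by
    rw [← Real.cos_arccos h1 h2]
    exact Real.cos_le_cos_of_nonneg_of_le_pi (Real.arccos_nonneg _)
      (by linarith [Real.pi_gt_three]) h
  have h4 : 1 - ε ^ 2 / 2 ≤ Real.cos ε := Real.one_sub_sq_div_two_le_cos
  rw [Metric.mem_closedBall, dist_eq_norm]
  have h5 : ‖s - o‖ ^ 2 = 2 - 2 * inner ℝ o s := by
    rw [norm_sub_sq_real, ho, hs, real_inner_comm]
    ring
  have h6 : ‖s - o‖ ^ 2 ≤ ε ^ 2 := by rw [h5]; linarith
  exact abs_le_of_sq_le_sq' h6 hε0 |>.2

/-- base case: the terminal measures are Frostman -/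
lemma frost_base {d T M : ℕ} (L : RLearner d T M) (C : ℝ) (η : ℕ) (hη : η ≤ d - 1)
    (hcap : ∀ (x : E d) (r : ℝ), 0 < r →
      sphE d (Metric.closedBall x r) ≤ ENNReal.ofReal C ^ d * ENNReal.ofReal r ^ (d - 1))
    (ε : ℝ) (hε : 0 < ε) (hε1 : ε ≤ 1) (ω : L.Ω) (st : L.St × Option ℕ) :
    Frost η (ENNReal.ofReal C ^ d * ENNReal.ofReal ε ^ (d - 1 - η))
      ((sphE d).withDensity (gL L ε ω st)) := by
  intro x r hr
  set o := L.out (st.2.getD T) ω st.1 with ho
  have hS : MeasurableSet {s : E d | Real.arccos (inner ℝ o s) ≤ ε} := by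
    refine measurableSet_le ?_ measurable_const
    exact Real.continuous_arccos.measurable.comp (measurable_const.inner measurable_id)
  have h1 : (sphE d).withDensity (gL L ε ω st) (Metric.closedBall x r) =
      sphE d ({s : E d | Real.arccos (inner ℝ o s) ≤ ε} ∩ Metric.closedBall x r) := by
    rw [withDensity_apply _ Metric.isClosed_closedBall.measurableSet]
    unfold gL
    rw [← ho, lintegral_indicator_one hS, Measure.restrict_apply hS]
  have h2 : sphE d {s : E d | Real.arccos (inner ℝ o s) ≤ ε} ≤ sphE d (Metric.closedBall o ε) := by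
    unfold sphE
    rw [Measure.map_apply measurable_subtype_coe hS,
      Measure.map_apply measurable_subtype_coe Metric.isClosed_closedBall.measurableSet]
    refine measure_mono fun s hs => ?_
    have hs2 : ‖(s : E d)‖ = 1 := by simpa using s.2
    exact arccos_dist o (L.out_unit _ _ _) _ hs2 ε hε1 hs
  rw [h1]
  have e : d - 1 = (d - 1 - η) + η := by omega
  rcases le_total r ε with h | h
  · calc sphE d ({s : E d | Real.arccos (inner ℝ o s) ≤ ε} ∩ Metric.closedBall x r)
        ≤ sphE d (Metric.closedBall x r) := measure_mono Set.inter_subset_right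
      _ ≤ ENNReal.ofReal C ^ d * ENNReal.ofReal r ^ (d - 1) := hcap x r hr
      _ = ENNReal.ofReal C ^ d * (ENNReal.ofReal r ^ (d - 1 - η) * ENNReal.ofReal r ^ η) := by
          rw [← pow_add, ← e]
      _ ≤ ENNReal.ofReal C ^ d * (ENNReal.ofReal ε ^ (d - 1 - η) * ENNReal.ofReal r ^ η) := by
          gcongr
      _ = _ := by ring
  · calc sphE d ({s : E d | Real.arccos (inner ℝ o s) ≤ ε} ∩ Metric.closedBall x r)
        ≤ sphE d {s : E d | Real.arccos (inner ℝ o s) ≤ ε} := measure_mono Set.inter_subset_left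
      _ ≤ sphE d (Metric.closedBall o ε) := h2
      _ ≤ ENNReal.ofReal C ^ d * ENNReal.ofReal ε ^ (d - 1) := hcap o ε hε
      _ = ENNReal.ofReal C ^ d * (ENNReal.ofReal ε ^ (d - 1 - η) * ENNReal.ofReal ε ^ η) := by
          rw [← pow_add, ← e]
      _ ≤ ENNReal.ofReal C ^ d * (ENNReal.ofReal ε ^ (d - 1 - η) * ENNReal.ofReal r ^ η) := by
          gcongr
      _ = _ := by ring

lemma sphE_univ_ball {d : ℕ} (f : E d → ℝ≥0∞) :
    (sphE d).withDensity f Set.univ ≤ (sphE d).withDensity f (Metric.closedBall 0 1) := by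
  have h0 : sphE d (Metric.closedBall 0 1)ᶜ = 0 := by
    unfold sphE
    rw [Measure.map_apply measurable_subtype_coe Metric.isClosed_closedBall.measurableSet.compl]
    have : ((fun s : Sphere d => (s : E d)) ⁻¹' (Metric.closedBall 0 1)ᶜ) = ∅ := by
      ext s
      have hs2 : ‖(s : E d)‖ = 1 := by simpa using s.2
      simp [hs2]
    rw [this, measure_empty]
  have h1 : (sphE d).withDensity f (Metric.closedBall 0 1)ᶜ = 0 :=
    withDensity_absolutelyContinuous _ _ h0
  calc (sphE d).withDensity f Set.univ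
      ≤ (sphE d).withDensity f (Metric.closedBall 0 1)
        + (sphE d).withDensity f (Metric.closedBall 0 1)ᶜ := by
        rw [← Set.union_compl_self (Metric.closedBall (0 : E d) 1)]
        exact measure_union_le _ _
    _ = _ := by rw [h1, add_zero]

end Crest.Agent.R322
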