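import Crest.Agent.R322.Unroll
import Crest.Agent.R322.Sphere

set_option autoImplicit false

namespace Crest.Agent.R322

open MeasureTheory Crest.StreamLearn
open scoped ENNReal

section Abstract

variable {d : ℕ} {S : Type}
variable [MeasurableSpace S] [DiscreteMeasurableSpace S] [Countable S]

/-- abstract one-block bound -/
def BlockBound (d B η : ℕ) (Γ : ℕ → ℝ≥0∞) : Prop :=
  ∀ (J : Type) [Fintype J] (κ : ℝ≥0∞) (ν : J → Measure (E d)),
      (∀ j, IsFiniteMeasure (ν j)) → (∀ j, Frost η κ (ν j)) →
      ∀ (F : (Fin B → E d) → (Fin B → ℝ) → J),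
      (∀ j, MeasurableSet {p : (Fin B → E d) × (Fin B → ℝ) | F p.1 p.2 = j}) →
      ∀ (x : E d) (r : ℝ), 0 < r →
        ∑ j, ∫⁻ X, ν j {s | s ∈ Metric.closedBall x r ∧
            F X (fun i => inner ℝ (X i) s) = j} ∂(gam d B)
          ≤ κ * Γ (Fintype.card J) * ENNReal.ofReal r ^ η

lemma measurable_runY' (step : ℕ → S → E d → ℝ → S)
    (hstep : ∀ t st, Measurable fun p : E d × ℝ => step t st p.1 p.2) (B t : ℕ) (st : S) :
    Measurable fun p : (Fin B → E d) × (Fin B → ℝ) => runY step B t st p.1 p.2 := by
  have h1 := measurable_runY (Ω := Unit) (fun _ => step)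
    (fun t st => (hstep t st).comp measurable_snd) B t
  have h2 : Measurable fun p : (Fin B → E d) × (Fin B → ℝ) => ((), (st, p)) :=
    measurable_const.prodMk (measurable_const.prodMk measurable_id)
  exact h1.comp h2

lemma block_expand (step : ℕ → S → E d → ℝ → S)
    (hstep : ∀ t st, Measurable fun p : E d × ℝ => step t st p.1 p.2)
    (g : S → E d → ℝ≥0∞) (hg : ∀ st, Measurable (g st)) (μ : Measure (E d)) [IsFiniteMeasure μ]
    (B n t : ℕ) (st : S) (J : Type) [Fintype J] (enc : S → J) (dec : J → S)
    (hcode : ∀ X Y, dec (enc (runY step B t st X Y)) = runY step B t st X Y)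
    (A : Set (E d)) (hA : MeasurableSet A) :
    μ.withDensity (Vf step g (B + n) t st) A =
      ∑ j, ∫⁻ X, μ.withDensity (Vf step g n (t + B) (dec j))
        {s | s ∈ A ∧ enc (runY step B t st X (fun i => inner ℝ (X i) s)) = j} ∂(gam d B) := by
  classical
  set F : (Fin B → E d) → (Fin B → ℝ) → J := fun X Y => enc (runY step B t st X Y) with hF
  have hFm : ∀ j, MeasurableSet {p : (Fin B → E d) × (Fin B → ℝ) | F p.1 p.2 = j} := fun j =>
    (measurable_runY' step hstep B t st) (MeasurableSet.of_discrete (s := {s : S | enc s = j}))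
  have hFm2 : ∀ j, MeasurableSet {p : E d × (Fin B → E d) | F p.2 (ms p.2 p.1) = j} := fun j => by
    have h : Measurable fun p : E d × (Fin B → E d) => (p.2, ms p.2 p.1) :=
      measurable_snd.prodMk (measurable_ms.comp (measurable_snd.prodMk measurable_fst))
    exact h (hFm j)
  have hV : ∀ m u q, Measurable (Vf step g m u q) := fun m u q =>
    (measurable_Vf step hstep g hg m u).comp (measurable_const.prodMk measurable_id)
  rw [withDensity_apply _ hA]
  have h1 : ∀ s, Vf step g (B + n) t st s = ∑ j, ∫⁻ X,
      Set.indicator {X | F X (ms X s) = j} (fun _ => Vf step g n (t + B) (dec j) s) X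
        ∂(gam d B) := by
    intro s
    rw [Vf_add step hstep g hg B n t st s, ← lintegral_finsetSum']
    · refine lintegral_congr fun X => ?_
      rw [Finset.sum_eq_single (F X (ms X s))]
      · rw [Set.indicator_of_mem (by simp)]
        rw [hF]
        simp only [hcode]
      · intro j _ hj
        rw [Set.indicator_of_notMem]
        intro h
        exact hj h.symm
      · intro h
        exact absurd (Finset.mem_univ _) h
    · intro j _
      refine (measurable_const.indicator ?_).aemeasurable
      exact (measurable_prodMk_left (x := s)) (hFm2 j)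
  simp_rw [h1]
  rw [lintegral_finsetSum']
  · refine Finset.sum_congr rfl fun j _ => ?_
    rw [lintegral_lintegral_swap]
    · refine lintegral_congr fun X => ?_
      have hm : MeasurableSet {s | F X (ms X s) = j} :=
        (measurable_prodMk_right (y := X)) (hFm2 j)
      have : {s | s ∈ A ∧ enc (runY step B t st X (fun i => inner ℝ (X i) s)) = j}
          = {s | F X (ms X s) = j} ∩ A := by
        ext s
        simp only [Set.mem_ofPred_eq, Set.mem_inter_iff]
        exact and_comm
      rw [this, withDensity_apply _ (hm.inter hA), ← Measure.restrict_restrict hm,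
        ← lintegral_indicator hm]
      refine lintegral_congr fun s => ?_
      by_cases h : F X (ms X s) = j
      · rw [Set.indicator_of_mem (by exact h), Set.indicator_of_mem (by exact h)]
      · rw [Set.indicator_of_notMem (by exact h), Set.indicator_of_notMem (by exact h)]
    · have : (Function.uncurry fun (s : E d) (X : Fin B → E d) =>
          Set.indicator {X | F X (ms X s) = j} (fun _ => Vf step g n (t + B) (dec j) s) X)
          = Set.indicator {p : E d × (Fin B → E d) | F p.2 (ms p.2 p.1) = j}
            (fun p => Vf step g n (t + B) (dec j) p.1) := by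
        ext p
        rcases p with ⟨s, X⟩
        simp only [Function.uncurry_apply_pair]
        by_cases h : F X (ms X s) = j
        · rw [Set.indicator_of_mem (by exact h), Set.indicator_of_mem (by exact h)]
        · rw [Set.indicator_of_notMem (by exact h), Set.indicator_of_notMem (by exact h)]
      rw [this]
      exact (((hV _ _ _).comp measurable_fst).indicator (hFm2 j)).aemeasurable
  · intro j _
    have h3 : Measurable fun p : E d × (Fin B → E d) =>
        Set.indicator {p : E d × (Fin B → E d) | F p.2 (ms p.2 p.1) = j}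
            (fun p => Vf step g n (t + B) (dec j) p.1) p :=
      ((hV _ _ _).comp measurable_fst).indicator (hFm2 j)
    have h4 := h3.lintegral_prod_right' (ν := gam d B)
    have e : (fun s => ∫⁻ X, Set.indicator {X | F X (ms X s) = j}
        (fun _ => Vf step g n (t + B) (dec j) s) X ∂(gam d B)) = fun s => ∫⁻ X,
        Set.indicator {p : E d × (Fin B → E d) | F p.2 (ms p.2 p.1) = j}
            (fun p => Vf step g n (t + B) (dec j) p.1) (s, X) ∂(gam d B) := by
      funext s
      refine lintegral_congr fun X => ?_
      by_cases h : F X (ms X s) = j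
      · rw [Set.indicator_of_mem (by exact h), Set.indicator_of_mem (by exact h)]
      · rw [Set.indicator_of_notMem (by exact h), Set.indicator_of_notMem (by exact h)]
    rw [e]
    exact h4.aemeasurable

omit [MeasurableSpace S] [DiscreteMeasurableSpace S] [Countable S] in
lemma Vf_le_one (step : ℕ → S → E d → ℝ → S) (g : S → E d → ℝ≥0∞) (hg1 : ∀ st s, g st s ≤ 1)
    (n t : ℕ) (st : S) (s : E d) : Vf step g n t st s ≤ 1 := by
  unfold Vf
  calc ∫⁻ X, g (runY step n t st X (ms X s)) s ∂(gam d n) ≤ ∫⁻ _, 1 ∂(gam d n) :=
        lintegral_mono fun X => hg1 _ _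
    _ = 1 := by simp

/-- iteration of the block bound -/
theorem frost_iter (step : ℕ → S → E d → ℝ → S)
    (hstep : ∀ t st, Measurable fun p : E d × ℝ => step t st p.1 p.2)
    (g : S → E d → ℝ≥0∞) (hg : ∀ st, Measurable (g st)) (hg1 : ∀ st s, g st s ≤ 1)
    (μ : Measure (E d)) [IsFiniteMeasure μ]
    (B η : ℕ) (Γ : ℕ → ℝ≥0∞) (hΓ : Monotone Γ) (hblock : BlockBound d B η Γ) (N : ℕ)
    (hcode : ∀ t st, ∃ (J : Type) (_ : Fintype J) (enc : S → J) (dec : J → S),
      Fintype.card J ≤ N ∧
      ∀ X Y, dec (enc (runY step B t st X Y)) = runY step B t st X Y)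
    (κ₀ : ℝ≥0∞) (hbase : ∀ st, Frost η κ₀ (μ.withDensity (g st))) (k : ℕ) :
    ∀ t st, Frost η (κ₀ * Γ N ^ k) (μ.withDensity (Vf step g (k * B) t st)) := by
  induction k with
  | zero =>
    intro t st
    have : Vf step g (0 * B) t st = g st := by
      funext s
      rw [zero_mul]
      exact Vf_zero step g t st s
    rw [this]
    simpa using hbase st
  | succ k ih =>
    intro t st x r hr
    obtain ⟨J, hJ, enc, dec, hcard, hc⟩ := hcode t st
    have e : (k + 1) * B = B + k * B := by ring
    rw [e, block_expand step hstep g hg μ B (k * B) t st J enc dec hc _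
      Metric.isClosed_closedBall.measurableSet]
    have h := hblock J (κ₀ * Γ N ^ k)
      (fun j => μ.withDensity (Vf step g (k * B) (t + B) (dec j)))
      (fun j => by
        refine isFiniteMeasure_withDensity ?_
        refine ne_of_lt (lt_of_le_of_lt (lintegral_mono fun s => Vf_le_one step g hg1 _ _ _ s) ?_)
        simp)
      (fun j => ih _ _) (fun X Y => enc (runY step B t st X Y))
      (fun j => (measurable_runY' step hstep B t st)
        (MeasurableSet.of_discrete (s := {s : S | enc s = j}))) x r hr
    refine h.trans ?_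
    have h2 : Γ (Fintype.card J) ≤ Γ N := hΓ hcard
    calc κ₀ * Γ N ^ k * Γ (Fintype.card J) * ENNReal.ofReal r ^ η
        ≤ κ₀ * Γ N ^ k * Γ N * ENNReal.ofReal r ^ η := by gcongr
      _ = κ₀ * Γ N ^ (k + 1) * ENNReal.ofReal r ^ η := by ring

end Abstract

end Crest.Agent.R322
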