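import Crest.Agent.R322.FrIter

set_option autoImplicit false

namespace Crest.Agent.R322

open MeasureTheory Crest.StreamLearn
open scoped ENNReal

section Learner

variable {d T M : ℕ} (L : RLearner d T M)

/-- step function of a learner with fixed seed -/
noncomputable def stepL (ω : L.Ω) (t : ℕ) (st : L.St × Option ℕ) (x : E d) (y : ℝ) :
    L.St × Option ℕ :=
  if h : t < T then
    if st.2.isSome then st else
      if (L.trans ⟨t, h⟩ ω st.1 x y).2
      then ((L.trans ⟨t, h⟩ ω st.1 x y).1, some (t + 1))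
      else ((L.trans ⟨t, h⟩ ω st.1 x y).1, none)
  else st

/-- initial run state -/
noncomputable def initL (ω : L.Ω) : L.St × Option ℕ :=
  (L.init ω, if L.stopFirst ω then some 0 else none)

/-- terminal payoff -/
noncomputable def gL (ε : ℝ) (ω : L.Ω) (st : L.St × Option ℕ) (s : E d) : ℝ≥0∞ :=
  Set.indicator {s : E d | Real.arccos (inner ℝ (L.out (st.2.getD T) ω st.1) s) ≤ ε} 1 s

lemma foldl_eq_runY (ω : L.Ω) (n : ℕ) : ∀ (t : ℕ) (st : L.St × Option ℕ) (X : Fin n → E d)
    (Y : Fin n → ℝ),
    (List.finRange n).foldl (fun st i => stepL L ω (t + i.val) st (X i) (Y i)) st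
      = runY (stepL L ω) n t st X Y := by
  induction n with
  | zero => intro t st X Y; simp [runY]
  | succ n ih =>
    intro t st X Y
    rw [List.finRange_succ, List.foldl_cons, List.foldl_map, runY, ← ih]
    simp only [Fin.val_zero, add_zero, Fin.val_succ]
    congr 1
    funext st i
    rw [show t + (i.val + 1) = t + 1 + i.val by ring]

lemma run_eq (ω : L.Ω) (s : E d) (xs : Fin T → E d) :
    L.run ω s xs = runY (stepL L ω) T 0 (initL L ω) xs (ms xs s) := by
  rw [← foldl_eq_runY]
  unfold RLearner.run initL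
  congr 1
  funext st t
  unfold stepL
  rw [dif_pos (by simpa using t.isLt)]
  have : (⟨0 + t.val, by simpa using t.isLt⟩ : Fin T) = t := by
    ext; simp
  rw [this]
  simp [ms]

instance instMSt : MeasurableSpace (L.St × Option ℕ) := ⊤
instance : DiscreteMeasurableSpace (L.St × Option ℕ) := ⟨fun _ => trivial⟩
instance : Countable (L.St × Option ℕ) := by
  haveI := L.fin
  infer_instance

lemma measurable_stepL : letI := L.mΩ
    ∀ (t : ℕ) (st : L.St × Option ℕ), Measurable fun p : L.Ω × (E d × ℝ) =>
      stepL L p.1 t st p.2.1 p.2.2 := by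
  letI := L.mΩ
  intro t st
  unfold stepL
  by_cases h : t < T
  · simp only [h, dite_true]
    by_cases h2 : st.2.isSome
    · simp only [h2, if_true]
      exact measurable_const
    · simp only [h2]
      have h3 := L.trans_measurable ⟨t, h⟩ st.1
      simp only [Bool.false_eq_true, if_false]
      refine Measurable.ite ?_ ?_ ?_
      · exact h3.2 (measurableSet_singleton true)
      · exact (measurable_from_top (f := fun q : L.St => (q, some (t + 1)))).comp h3.1
      · exact (measurable_from_top (f := fun q : L.St => (q, (none : Option ℕ)))).comp h3.1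
  · simp only [h, dite_false]
    exact measurable_const

lemma measurable_initL : letI := L.mΩ
    Measurable (initL L) := by
  letI := L.mΩ
  unfold initL
  letI : MeasurableSpace L.St := ⊤
  have h1 : Measurable L.init := L.init_measurable
  have h2 : Measurable L.stopFirst := L.stopFirst_measurable
  have : (fun ω => (L.init ω, if L.stopFirst ω = true then some 0 else none))
      = fun ω => if L.stopFirst ω = true then (L.init ω, some 0) else (L.init ω, none) := by
    funext ω
    split_ifs <;> rfl
  rw [this]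
  refine Measurable.ite ?_ ?_ ?_
  · exact h2 (measurableSet_singleton true)
  · exact (measurable_from_top (f := fun q : L.St => (q, some 0))).comp h1
  · exact (measurable_from_top (f := fun q : L.St => (q, (none : Option ℕ)))).comp h1

lemma measurable_gL_joint (ε : ℝ) : letI := L.mΩ
    ∀ st, Measurable fun p : L.Ω × E d => gL L ε p.1 st p.2 := by
  letI := L.mΩ
  intro st
  have h1 : Measurable fun p : L.Ω × E d =>
      Real.arccos (inner ℝ (L.out (st.2.getD T) p.1 st.1) p.2) := by
    refine Real.continuous_arccos.measurable.comp ?_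
    exact ((L.out_measurable (st.2.getD T) st.1).comp measurable_fst).inner measurable_snd
  have h2 : MeasurableSet {p : L.Ω × E d |
      Real.arccos (inner ℝ (L.out (st.2.getD T) p.1 st.1) p.2) ≤ ε} :=
    measurableSet_le h1 measurable_const
  have h3 : (fun p : L.Ω × E d => gL L ε p.1 st p.2) = Set.indicator {p : L.Ω × E d |
      Real.arccos (inner ℝ (L.out (st.2.getD T) p.1 st.1) p.2) ≤ ε} 1 := by
    funext p
    unfold gL
    by_cases h : Real.arccos (inner ℝ (L.out (st.2.getD T) p.1 st.1) p.2) ≤ ε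
    · rw [Set.indicator_of_mem (by exact h), Set.indicator_of_mem (by exact h)]; rfl
    · rw [Set.indicator_of_notMem (by exact h), Set.indicator_of_notMem (by exact h)]
  rw [h3]
  exact measurable_one.indicator h2

lemma gL_le_one (ε : ℝ) (ω : L.Ω) (st : L.St × Option ℕ) (s : E d) : gL L ε ω st s ≤ 1 := by
  unfold gL
  exact Set.indicator_le_self' (fun _ _ => zero_le_one) s

/-- payoff of a whole run, as a function of signal, seed, samples -/
noncomputable def payL (ε : ℝ) (s : E d) (ω : L.Ω) (xs : Fin T → E d) : ℝ≥0∞ :=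
  gL L ε ω (runY (stepL L ω) T 0 (initL L ω) xs (ms xs s)) s

lemma payL_eq (ε : ℝ) (s : E d) (ω : L.Ω) (xs : Fin T → E d) :
    payL L ε s ω xs =
      Set.indicator {s : E d | Real.arccos (inner ℝ (L.output ω s xs) s) ≤ ε} 1 s := by
  unfold payL gL
  rw [← run_eq]
  rfl

lemma measurable_payL (ε : ℝ) : letI := L.mΩ
    Measurable fun p : E d × (L.Ω × (Fin T → E d)) => payL L ε p.1 p.2.1 p.2.2 := by
  letI := L.mΩ
  have h1 := measurable_runY (fun ω => stepL L ω) (measurable_stepL L) T 0
  have h2 : Measurable fun q : E d × (L.Ω × (Fin T → E d)) =>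
      (q.2.1, (initL L q.2.1, (q.2.2, ms q.2.2 q.1))) := by
    refine (measurable_fst.comp measurable_snd).prodMk
      (((measurable_initL L).comp (measurable_fst.comp measurable_snd)).prodMk
      ((measurable_snd.comp measurable_snd).prodMk ?_))
    exact measurable_ms.comp ((measurable_snd.comp measurable_snd).prodMk measurable_fst)
  have h3 := h1.comp h2
  have h4 : Measurable fun q : (L.St × Option ℕ) × (L.Ω × E d) => gL L ε q.2.1 q.1 q.2.2 :=
    measurable_from_prod_countable_right fun st => measurable_gL_joint L ε st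
  have h6 : Measurable fun q : E d × (L.Ω × (Fin T → E d)) => (q.2.1, q.1) :=
    (measurable_fst.comp measurable_snd).prodMk measurable_fst
  have h7 := h3.prodMk h6
  have h8 := h4.comp h7
  exact h8

lemma Vf_eq_payL (ε : ℝ) (s : E d) (ω : L.Ω) :
    Vf (stepL L ω) (gL L ε ω) T 0 (initL L ω) s = ∫⁻ xs, payL L ε s ω xs ∂(gam d T) := rfl

end Learner

section Fub

/-- abstract Fubini -/
lemma fub {Sp Em Om Xs : Type} [MeasurableSpace Sp] [MeasurableSpace Em]
    [MeasurableSpace Om] [MeasurableSpace Xs] (σ : Measure Sp) [IsFiniteMeasure σ]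
    (c : Sp → Em) (hc : Measurable c) (ρ : Measure Om) [IsProbabilityMeasure ρ]
    (γ : Measure Xs) [IsProbabilityMeasure γ]
    (f : Em → Om → Xs → ℝ≥0∞) (hf : Measurable fun p : Em × (Om × Xs) => f p.1 p.2.1 p.2.2)
    (A : Set (Sp × (Om × Xs))) (hfA : ∀ s ω x, f (c s) ω x = A.indicator (fun _ => 1) (s, (ω, x)))
    (a : ℝ) (h : a ≤ (σ.prod (ρ.prod γ)).real A) :
    ∃ ω, ENNReal.ofReal a ≤ ∫⁻ e, ∫⁻ x, f e ω x ∂γ ∂(σ.map c) := by
  have hfS : Measurable fun p : Sp × (Om × Xs) => f (c p.1) p.2.1 p.2.2 := by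
    have h6 : Measurable fun p : Sp × (Om × Xs) => (c p.1, p.2) :=
      (hc.comp measurable_fst).prodMk measurable_snd
    exact hf.comp h6
  have hAm : MeasurableSet A := by
    have h8 := hfS (measurableSet_singleton (1 : ℝ≥0∞))
    convert h8 using 1
    ext p
    rcases p with ⟨s, ω, x⟩
    simp only [Set.mem_preimage, Set.mem_singleton_iff, hfA]
    by_cases hp : (s, (ω, x)) ∈ A
    · simp [hp]
    · simp [hp]
  have hmass : (σ.prod (ρ.prod γ)) A = ∫⁻ ω, ∫⁻ e, ∫⁻ x, f e ω x ∂γ ∂(σ.map c) ∂ρ := by
    have e0 : (σ.prod (ρ.prod γ)) A = ∫⁻ p, f (c p.1) p.2.1 p.2.2 ∂(σ.prod (ρ.prod γ)) := by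
      rw [← lintegral_indicator_one hAm]
      refine lintegral_congr fun p => ?_
      rcases p with ⟨s, ω, x⟩
      simp only [hfA]
      rfl
    rw [e0, lintegral_prod _ hfS.aemeasurable]
    have e1 : ∀ s : Sp, ∫⁻ y : Om × Xs, f (c s) y.1 y.2 ∂(ρ.prod γ)
        = ∫⁻ ω, ∫⁻ x, f (c s) ω x ∂γ ∂ρ := by
      intro s
      rw [lintegral_prod]
      exact (hfS.comp (measurable_prodMk_left (x := s))).aemeasurable
    have e2 : ∀ s : Sp, ∫⁻ y : Om × Xs, f (c (s, y).1) (s, y).2.1 (s, y).2.2 ∂(ρ.prod γ)
        = ∫⁻ ω, ∫⁻ x, f (c s) ω x ∂γ ∂ρ := fun s => e1 s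
    simp_rw [e1]
    have hG2 : Measurable fun q : (Sp × Om) × Xs => f (c q.1.1) q.1.2 q.2 :=
      hfS.comp ((measurable_fst.comp measurable_fst).prodMk
        ((measurable_snd.comp measurable_fst).prodMk measurable_snd))
    have hG3 := hG2.lintegral_prod_right' (ν := γ)
    rw [lintegral_lintegral_swap (by exact hG3.aemeasurable)]
    refine lintegral_congr fun ω => ?_
    rw [lintegral_map _ hc]
    have hE : Measurable fun q : Em × Xs => f q.1 ω q.2 :=
      hf.comp (measurable_fst.prodMk (measurable_const.prodMk measurable_snd))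
    exact hE.lintegral_prod_right'
  have hfin : (σ.prod (ρ.prod γ)) A ≠ ⊤ := measure_ne_top _ _
  have h1 : ENNReal.ofReal a ≤ (σ.prod (ρ.prod γ)) A := ENNReal.ofReal_le_of_le_toReal h
  rw [hmass] at h1 hfin
  obtain ⟨ω, hω⟩ := exists_lintegral_le hfin
  exact ⟨ω, h1.trans hω⟩

end Fub

section Learner2

variable {d T M : ℕ} (L : RLearner d T M)

/-- Fubini over the seed -/
lemma exists_seed (ε : ℝ) (h : 2 / 3 ≤ L.successProb ε) :
    ∃ ω, ENNReal.ofReal (2 / 3) ≤
      (sphE d).withDensity (Vf (stepL L ω) (gL L ε ω) T 0 (initL L ω)) Set.univ := by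
  letI := L.mΩ
  haveI : IsProbabilityMeasure L.ρ := L.prob
  haveI : IsProbabilityMeasure (Measure.pi fun _ : Fin T => ProbabilityTheory.stdGaussian (E d)) :=
    inferInstance
  unfold RLearner.successProb at h
  obtain ⟨ω, hω⟩ := fub (sphereUniform d) (fun s : Sphere d => (s : E d)) measurable_subtype_coe
    L.ρ (Measure.pi fun _ : Fin T => ProbabilityTheory.stdGaussian (E d))
    (payL L ε) (measurable_payL L ε) _ (fun s ω x => by
      rw [payL_eq]
      by_cases hh : Real.arccos (inner ℝ (L.output ω (s : E d) x) (s : E d)) ≤ ε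
      · rw [Set.indicator_of_mem (by exact hh), Set.indicator_of_mem (by exact hh)]; rfl
      · rw [Set.indicator_of_notMem (by exact hh), Set.indicator_of_notMem (by exact hh)])
    (2 / 3) h
  refine ⟨ω, hω.trans ?_⟩
  rw [withDensity_apply _ MeasurableSet.univ, Measure.restrict_univ]
  exact le_of_eq rfl

end Learner2

end Crest.Agent.R322
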