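import Crest.Agent.R322.FrFinal

set_option autoImplicit false

namespace Crest.Agent.R322

open MeasureTheory Crest.StreamLearn
open scoped ENNReal

instance sphE_finite (d : ℕ) : IsFiniteMeasure (sphE d) := by
  unfold sphE
  infer_instance

/-- the real inequality obtained from the iteration -/
lemma success_real {C₁ C₂ : ℝ} (hC₁ : 1 ≤ C₁) (hC₂ : 1 ≤ C₂) {d M T : ℕ} (hd : 16 ≤ d)
    (hcap : ∀ (x : E d) (r : ℝ), 0 < r →
      sphE d (Metric.closedBall x r) ≤ ENNReal.ofReal C₁ ^ d * ENNReal.ofReal r ^ (d - 1))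
    (hblock : BlockBound d (bl d) (et d)
      (fun n => ENNReal.ofReal C₂ ^ d * (n : ℝ≥0∞) ^ ((1 : ℝ) / (bl d : ℝ))))
    (ε : ℝ) (hε : 0 < ε) (hε1 : ε ≤ 1) (L : RLearner d T M) (hL : 2 / 3 ≤ L.successProb ε) :
    (2 : ℝ) / 3 ≤ C₁ ^ d * ε ^ (d - 1 - et d) *
      (C₂ ^ d * ((2 ^ M * (bl d + 1) : ℕ) : ℝ) ^ ((1 : ℝ) / (bl d : ℝ))) ^ (T / bl d + 1) := by
  obtain ⟨ω, hω⟩ := exists_seed L ε hL
  have hb : 0 < bl d := by unfold bl; omega
  set K := T / bl d + 1 with hK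
  have hKT : T ≤ K * bl d := by
    have := Nat.lt_div_mul_add (a := T) hb
    rw [hK, add_mul, one_mul]
    omega
  obtain ⟨m, hm⟩ := Nat.exists_eq_add_of_le hKT
  have hΓ : Monotone (fun n : ℕ => ENNReal.ofReal C₂ ^ d * (n : ℝ≥0∞) ^ ((1 : ℝ) / (bl d : ℝ))) := by
    intro a b hab
    have : (a : ℝ≥0∞) ≤ (b : ℝ≥0∞) := by exact_mod_cast hab
    dsimp only
    gcongr
  have hη : et d ≤ d - 1 := by unfold et; omega
  have h := frost_iter (stepL L ω) (measurable_stepL' L ω) (gL L ε ω) (measurable_gL' L ε ω)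
    (gL_le_one L ε ω) (sphE d) (bl d) (et d) _ hΓ hblock (2 ^ M * (bl d + 1))
    (fun t st => coding L ω (bl d) t st) _
    (fun st => frost_base L C₁ (et d) hη hcap ε hε hε1 ω st) K 0 (initL L ω) 0 1 one_pos
  have e1 : Vf (stepL L ω) (gL L ε ω) (K * bl d) 0 (initL L ω)
      = Vf (stepL L ω) (gL L ε ω) T 0 (initL L ω) := by
    funext s
    rw [hm]
    exact Vf_horizon L ε ω m s
  rw [e1] at h
  have h2 := hω.trans ((sphE_univ_ball _).trans h)
  have hC₁0 : 0 ≤ C₁ := by linarith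
  have hC₂0 : 0 ≤ C₂ := by linarith
  have e2 : ENNReal.ofReal C₁ ^ d * ENNReal.ofReal ε ^ (d - 1 - et d) *
      (ENNReal.ofReal C₂ ^ d * (((2 ^ M * (bl d + 1) : ℕ)) : ℝ≥0∞) ^ ((1 : ℝ) / (bl d : ℝ))) ^ K *
        ENNReal.ofReal 1 ^ et d =
      ENNReal.ofReal (C₁ ^ d * ε ^ (d - 1 - et d) *
      (C₂ ^ d * ((2 ^ M * (bl d + 1) : ℕ) : ℝ) ^ ((1 : ℝ) / (bl d : ℝ))) ^ K) := by
    rw [ENNReal.ofReal_one, one_pow, mul_one]
    have e3 : (((2 ^ M * (bl d + 1) : ℕ)) : ℝ≥0∞) ^ ((1 : ℝ) / (bl d : ℝ))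
        = ENNReal.ofReal (((2 ^ M * (bl d + 1) : ℕ) : ℝ) ^ ((1 : ℝ) / (bl d : ℝ))) := by
      rw [← ENNReal.ofReal_rpow_of_nonneg (by positivity) (by positivity),
        ENNReal.ofReal_natCast]
    rw [e3, ← ENNReal.ofReal_pow hC₁0, ← ENNReal.ofReal_pow hε.le, ← ENNReal.ofReal_pow hC₂0,
      ← ENNReal.ofReal_mul (by positivity), ← ENNReal.ofReal_mul (by positivity),
      ← ENNReal.ofReal_pow (by positivity), ← ENNReal.ofReal_mul (by positivity)]
  rw [e2] at h2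
  exact (ENNReal.ofReal_le_ofReal_iff (by positivity)).1 h2

/-- S0499 from the three components. -/
theorem final_of (hB : BlockLemma) (hC : CapBound) (hS : SmallT) :
    ∀ A : ℝ, 0 < A → ∃ c : ℝ, 0 < c ∧ ∃ d₀ : ℕ, ∀ d ≥ d₀, ∀ (M T : ℕ),
      (M : ℝ) ≤ A * (d : ℝ) ^ 2 → ∀ ε : ℝ, 0 < ε → ε ≤ 1 / 10 →
        ∀ L : Crest.StreamLearn.RLearner d T M,
          2 / 3 ≤ L.successProb ε → c * d * Real.log (1 / ε) ≤ T := by
  intro A hA
  obtain ⟨C₂, hC₂, d₂, hB⟩ := hB
  obtain ⟨C₁, hC₁, d₁, hC⟩ := hC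
  obtain ⟨d₃, hS⟩ := hS
  set c₁ : ℝ := Real.log C₁ + 1 with hc₁
  set c₂ : ℝ := Real.log C₂ + 16 * A + 1 with hc₂
  have hl1 : 0 ≤ Real.log C₁ := Real.log_nonneg hC₁
  have hl2 : 0 ≤ Real.log C₂ := Real.log_nonneg hC₂
  have hc₁0 : 1 ≤ c₁ := by linarith
  have hc₂0 : 1 ≤ c₂ := by linarith
  refine ⟨min (1 / (32 * (c₁ + c₂))) (1 / (64 * c₂)), by positivity,
    max (max d₁ d₂) (max d₃ 16), ?_⟩
  intro d hd M T hM ε hε hε1 L hL
  have hd1 : d₁ ≤ d := le_trans (le_max_left _ _) (le_trans (le_max_left _ _) hd)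
  have hd2 : d₂ ≤ d := le_trans (le_max_right _ _) (le_trans (le_max_left _ _) hd)
  have hd3 : d₃ ≤ d := le_trans (le_max_left _ _) (le_trans (le_max_right _ _) hd)
  have hd4 : 16 ≤ d := le_trans (le_max_right _ _) (le_trans (le_max_right _ _) hd)
  have hsm := hS d hd3 M T ε hε hε1 L hL
  set ℓ := Real.log (1 / ε) with hℓ
  have hℓ0 : 0 < ℓ := Real.log_pos (by rw [lt_div_iff₀ hε]; linarith)
  have hdR : (16 : ℝ) ≤ d := by exact_mod_cast hd4
  have hdpos : (0 : ℝ) < d := by linarith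
  by_cases hcase : ℓ ≤ 4 * (c₁ + c₂)
  · calc min (1 / (32 * (c₁ + c₂))) (1 / (64 * c₂)) * d * ℓ
        ≤ (1 / (32 * (c₁ + c₂))) * d * (4 * (c₁ + c₂)) := by
          gcongr
          exact min_le_left _ _
      _ = d / 8 := by field_simp; ring
      _ ≤ T := hsm
  · rw [not_le] at hcase
    have hreal := success_real hC₁ hC₂ hd4 (fun x r hr => hC d hd1 x r hr)
      (fun J _ κ ν h1 h2 F hF x r hr => by
        have := hB d hd2 J κ ν h1 h2 F hF x r hr
        calc _ ≤ _ := this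
          _ = _ := by ring) ε hε (by linarith) L hL
    set b := bl d with hb
    have hb0 : 0 < b := by rw [hb]; unfold bl; omega
    have hbR : (d : ℝ) / 16 ≤ b := by
      have h16 : d ≤ 16 * b := by rw [hb]; unfold bl; omega
      have : (d : ℝ) ≤ 16 * b := by exact_mod_cast h16
      linarith
    have hbpos : (0 : ℝ) < b := by exact_mod_cast hb0
    set m := d - 1 - et d with hm
    have hmR : (d : ℝ) / 2 ≤ m := by
      have h2 : d ≤ 2 * m := by rw [hm]; unfold et; omega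
      have : (d : ℝ) ≤ 2 * m := by exact_mod_cast h2
      linarith
    set K := T / b + 1 with hK
    set N : ℕ := 2 ^ M * (b + 1) with hN
    have hN0 : (0 : ℝ) < (N : ℝ) := by
      have : 0 < N := by rw [hN]; positivity
      exact_mod_cast this
    have hlogN : Real.log N ≤ M + b := by
      rw [hN]
      push_cast
      rw [Real.log_mul (by positivity) (by positivity), Real.log_pow]
      have h1 : Real.log 2 ≤ 1 := by
        have := Real.log_two_lt_d9
        linarith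
      have h2 : Real.log ((b : ℝ) + 1) ≤ b := by
        have := Real.log_le_sub_one_of_pos (show (0 : ℝ) < (b : ℝ) + 1 by positivity)
        linarith
      have h3 : (M : ℝ) * Real.log 2 ≤ M * 1 := by gcongr
      linarith
    have hlog : Real.log (2 / 3) ≤ Real.log (C₁ ^ d * ε ^ m *
      (C₂ ^ d * (N : ℝ) ^ ((1 : ℝ) / (b : ℝ))) ^ K) := Real.log_le_log (by norm_num) hreal
    have hC₁p : 0 < C₁ := by linarith
    have hC₂p : 0 < C₂ := by linarith
    have hNp : 0 < (N : ℝ) ^ ((1 : ℝ) / (b : ℝ)) := Real.rpow_pos_of_pos hN0 _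
    rw [Real.log_mul (by positivity) (by positivity), Real.log_mul (by positivity) (by positivity),
      Real.log_pow, Real.log_pow, Real.log_pow, Real.log_mul (by positivity) (by positivity),
      Real.log_pow, Real.log_rpow hN0] at hlog
    have hε_log : Real.log ε = -ℓ := by rw [hℓ, one_div, Real.log_inv]; ring
    rw [hε_log] at hlog
    have h23 : -1 ≤ Real.log (2 / 3) := by
      have h := Real.one_sub_inv_le_log_of_pos (show (0 : ℝ) < 2 / 3 by norm_num)
      have : (1 : ℝ) - (2 / 3)⁻¹ = - (1 / 2) := by norm_num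
      linarith
    have hterm : 1 / (b : ℝ) * Real.log N ≤ (16 * A + 1) * d := by
      have h1 : 1 / (b : ℝ) * Real.log N ≤ 1 / (b : ℝ) * (M + b) := by gcongr
      have h2 : 1 / (b : ℝ) * (M + b) = M / b + 1 := by field_simp
      have h3 : (M : ℝ) / b ≤ 16 * A * d := by
        rw [div_le_iff₀ hbpos]
        calc (M : ℝ) ≤ A * d ^ 2 := hM
          _ = 16 * A * d * (d / 16) := by ring
          _ ≤ 16 * A * d * b := by gcongr
      nlinarith
    have hKR : (0 : ℝ) ≤ K := by positivity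
    have hmain : (d : ℝ) / 2 * ℓ ≤ d * c₁ + K * (d * c₂) := by
      have h1 : (d : ℝ) / 2 * ℓ ≤ m * ℓ := by gcongr
      have h2 : (K : ℝ) * (d * Real.log C₂ + 1 / (b : ℝ) * Real.log N)
          ≤ K * (d * Real.log C₂ + (16 * A + 1) * d) := by gcongr
      have h3 : (K : ℝ) * (d * Real.log C₂ + (16 * A + 1) * d) = K * (d * c₂) := by
        rw [hc₂]; ring
      have h4 : (m : ℝ) * ℓ ≤ 1 + d * Real.log C₁ + K * (d * c₂) := by nlinarith
      have h5 : (1 : ℝ) + d * Real.log C₁ ≤ d * c₁ := by rw [hc₁]; linarith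
      linarith
    have hKbound : ℓ / 2 ≤ c₁ + K * c₂ := by
      have : (d : ℝ) * (ℓ / 2) ≤ d * (c₁ + K * c₂) := by linarith
      exact le_of_mul_le_mul_left this hdpos
    have hTb : ((K : ℝ) - 1) * b ≤ T := by
      have h1 : T / b * b ≤ T := Nat.div_mul_le_self T b
      have h2 : ((T / b : ℕ) : ℝ) * b ≤ T := by exact_mod_cast h1
      have h3 : (K : ℝ) - 1 = ((T / b : ℕ) : ℝ) := by rw [hK]; push_cast; ring
      rw [h3]; exact h2
    have hK1 : ℓ / (4 * c₂) ≤ (K : ℝ) - 1 := by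
      rw [div_le_iff₀ (by positivity)]
      nlinarith
    calc min (1 / (32 * (c₁ + c₂))) (1 / (64 * c₂)) * d * ℓ
        ≤ (1 / (64 * c₂)) * d * ℓ := by
          gcongr
          exact min_le_right _ _
      _ = ℓ / (4 * c₂) * (d / 16) := by field_simp; ring
      _ ≤ ((K : ℝ) - 1) * b := by
          have : 0 ≤ ℓ / (4 * c₂) := by positivity
          have : (0 : ℝ) ≤ (K : ℝ) - 1 := by linarith
          gcongr
      _ ≤ T := hTb

end Crest.Agent.R322
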