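import Crest.Agent.R322.Iface

set_option autoImplicit false

namespace Crest.Agent.R322

open MeasureTheory Crest.StreamLearn
open scoped ENNReal

section Abstract

variable {d : ℕ} {S : Type}

/-- run of a step function over `n` samples starting at time `t` -/
def runY (step : ℕ → S → E d → ℝ → S) : (n : ℕ) → (t : ℕ) → S → (Fin n → E d) → (Fin n → ℝ) → S
  | 0, _, st, _, _ => st
  | n + 1, t, st, X, Y =>
      runY step n (t + 1) (step t st (X 0) (Y 0)) (fun i => X i.succ) (fun i => Y i.succ)

/-- the measurements -/
noncomputable def ms {n : ℕ} (X : Fin n → E d) (s : E d) : Fin n → ℝ := fun i => inner ℝ (X i) s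

lemma measurable_ms {n : ℕ} : Measurable fun p : (Fin n → E d) × E d => ms p.1 p.2 := by
  refine measurable_pi_lambda _ fun i => ?_
  exact ((measurable_pi_apply i).comp measurable_fst).inner measurable_snd

variable [MeasurableSpace S] [DiscreteMeasurableSpace S] [Countable S]

lemma measurable_runY {Ω : Type} [MeasurableSpace Ω] (step : Ω → ℕ → S → E d → ℝ → S)
    (hstep : ∀ t st, Measurable fun p : Ω × (E d × ℝ) => step p.1 t st p.2.1 p.2.2) (n : ℕ) :
    ∀ t, Measurable fun p : Ω × (S × ((Fin n → E d) × (Fin n → ℝ))) =>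
      runY (step p.1) n t p.2.1 p.2.2.1 p.2.2.2 := by
  induction n with
  | zero => intro t; exact measurable_fst.comp measurable_snd
  | succ n ih =>
    intro t
    have h1 : Measurable fun p : S × (Ω × (E d × ℝ)) => step p.2.1 t p.1 p.2.2.1 p.2.2.2 :=
      measurable_from_prod_countable_right fun st => hstep t st
    have hX : Measurable fun p : Ω × (S × ((Fin (n + 1) → E d) × (Fin (n + 1) → ℝ))) => p.2.2.1 :=
      measurable_fst.comp (measurable_snd.comp measurable_snd)
    have hY : Measurable fun p : Ω × (S × ((Fin (n + 1) → E d) × (Fin (n + 1) → ℝ))) => p.2.2.2 :=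
      measurable_snd.comp (measurable_snd.comp measurable_snd)
    have hS : Measurable fun p : Ω × (S × ((Fin (n + 1) → E d) × (Fin (n + 1) → ℝ))) => p.2.1 :=
      measurable_fst.comp measurable_snd
    have hXi : ∀ i, Measurable fun p : Ω × (S × ((Fin (n + 1) → E d) × (Fin (n + 1) → ℝ))) =>
        p.2.2.1 i := fun i => measurable_pi_iff.1 hX i
    have hYi : ∀ i, Measurable fun p : Ω × (S × ((Fin (n + 1) → E d) × (Fin (n + 1) → ℝ))) =>
        p.2.2.2 i := fun i => measurable_pi_iff.1 hY i
    have h3 : Measurable fun p : Ω × (S × ((Fin (n + 1) → E d) × (Fin (n + 1) → ℝ))) =>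
        step p.1 t p.2.1 (p.2.2.1 0) (p.2.2.2 0) :=
      h1.comp (hS.prodMk (measurable_fst.prodMk ((hXi 0).prodMk (hYi 0))))
    have h2 : Measurable fun p : Ω × (S × ((Fin (n + 1) → E d) × (Fin (n + 1) → ℝ))) =>
        (p.1, (step p.1 t p.2.1 (p.2.2.1 0) (p.2.2.2 0),
          ((fun i : Fin n => p.2.2.1 i.succ), (fun i : Fin n => p.2.2.2 i.succ)))) :=
      measurable_fst.prodMk (h3.prodMk
        ((measurable_pi_lambda _ fun i : Fin n => hXi i.succ).prodMk
          (measurable_pi_lambda _ fun i : Fin n => hYi i.succ)))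
    exact (ih (t + 1)).comp h2

/-- peel off the first sample -/
lemma lintegral_gam_succ (n : ℕ) (f : (Fin (n + 1) → E d) → ℝ≥0∞) (hf : Measurable f) :
    ∫⁻ X, f X ∂(gam d (n + 1)) =
      ∫⁻ x, ∫⁻ X, f (Fin.cons x X) ∂(gam d n) ∂(ProbabilityTheory.stdGaussian (E d)) := by
  have h := (measurePreserving_piFinSuccAbove (n := n)
    (fun _ : Fin (n + 1) => ProbabilityTheory.stdGaussian (E d)) 0)
  have h2 := h.symm.lintegral_comp hf
  unfold gam
  rw [← h2, lintegral_prod]
  · have : ∀ (x : E d) (y : Fin n → E d),
        (MeasurableEquiv.piFinSuccAbove (fun _ : Fin (n + 1) => E d) 0).symm (x, y)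
          = Fin.cons x y := by
      intro x y
      simp [MeasurableEquiv.piFinSuccAbove]
      rfl
    simp_rw [this]
  · exact (hf.comp (MeasurableEquiv.measurable _)).aemeasurable

instance (n : ℕ) : IsProbabilityMeasure (gam d n) := by unfold gam; infer_instance

/-- value function -/
noncomputable def Vf (step : ℕ → S → E d → ℝ → S) (g : S → E d → ℝ≥0∞) (n t : ℕ) (st : S)
    (s : E d) : ℝ≥0∞ :=
  ∫⁻ X, g (runY step n t st X (ms X s)) s ∂(gam d n)

lemma measurable_payoff (step : ℕ → S → E d → ℝ → S)
    (hstep : ∀ t st, Measurable fun p : E d × ℝ => step t st p.1 p.2)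
    (g : S → E d → ℝ≥0∞) (hg : ∀ st, Measurable (g st)) (n t : ℕ) :
    Measurable fun p : S × (E d × (Fin n → E d)) =>
      g (runY step n t p.1 p.2.2 (ms p.2.2 p.2.1)) p.2.1 := by
  have h1 := measurable_runY (Ω := Unit) (fun _ => step)
    (fun t st => (hstep t st).comp measurable_snd) n t
  have h2 : Measurable fun p : S × (E d × (Fin n → E d)) =>
      runY step n t p.1 p.2.2 (ms p.2.2 p.2.1) := by
    have h3 : Measurable fun p : S × (E d × (Fin n → E d)) =>
        ((), (p.1, (p.2.2, ms p.2.2 p.2.1))) := by
      refine measurable_const.prodMk (measurable_fst.prodMk ?_)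
      refine (measurable_snd.comp measurable_snd).prodMk ?_
      exact measurable_ms.comp ((measurable_snd.comp measurable_snd).prodMk
        (measurable_fst.comp measurable_snd))
    exact h1.comp h3
  have h4 : Measurable fun q : S × E d => g q.1 q.2 :=
    measurable_from_prod_countable_right fun st => hg st
  exact h4.comp (h2.prodMk (measurable_fst.comp measurable_snd))

lemma measurable_Vf (step : ℕ → S → E d → ℝ → S)
    (hstep : ∀ t st, Measurable fun p : E d × ℝ => step t st p.1 p.2)
    (g : S → E d → ℝ≥0∞) (hg : ∀ st, Measurable (g st)) (n t : ℕ) :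
    Measurable fun p : S × E d => Vf step g n t p.1 p.2 := by
  unfold Vf
  have h := measurable_payoff step hstep g hg n t
  have h2 : Measurable fun q : (S × E d) × (Fin n → E d) =>
      g (runY step n t q.1.1 q.2 (ms q.2 q.1.2)) q.1.2 :=
    h.comp ((measurable_fst.comp measurable_fst).prodMk
      ((measurable_snd.comp measurable_fst).prodMk measurable_snd))
  exact h2.lintegral_prod_right'

omit [MeasurableSpace S] [DiscreteMeasurableSpace S] [Countable S] in
@[simp] lemma Vf_zero (step : ℕ → S → E d → ℝ → S) (g : S → E d → ℝ≥0∞) (t : ℕ) (st : S)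
    (s : E d) : Vf step g 0 t st s = g st s := by
  unfold Vf
  simp [runY]

lemma Vf_succ (step : ℕ → S → E d → ℝ → S)
    (hstep : ∀ t st, Measurable fun p : E d × ℝ => step t st p.1 p.2)
    (g : S → E d → ℝ≥0∞) (hg : ∀ st, Measurable (g st)) (n t : ℕ) (st : S) (s : E d) :
    Vf step g (n + 1) t st s =
      ∫⁻ x, Vf step g n (t + 1) (step t st x (inner ℝ x s)) s
        ∂(ProbabilityTheory.stdGaussian (E d)) := by
  unfold Vf
  rw [lintegral_gam_succ]
  · rfl
  · exact (measurable_payoff step hstep g hg (n + 1) t).comp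
      (measurable_const.prodMk (measurable_const.prodMk measurable_id))

lemma Vf_add (step : ℕ → S → E d → ℝ → S)
    (hstep : ∀ t st, Measurable fun p : E d × ℝ => step t st p.1 p.2)
    (g : S → E d → ℝ≥0∞) (hg : ∀ st, Measurable (g st)) (m n : ℕ) :
    ∀ (t : ℕ) (st : S) (s : E d), Vf step g (m + n) t st s =
      ∫⁻ X, Vf step g n (t + m) (runY step m t st X (ms X s)) s ∂(gam d m) := by
  induction m with
  | zero =>
    intro t st s
    simp [runY]
  | succ m ih =>
    intro t st s
    rw [show m + 1 + n = (m + n) + 1 by ring, Vf_succ step hstep g hg]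
    simp_rw [ih]
    rw [lintegral_gam_succ]
    · refine lintegral_congr fun x => lintegral_congr fun X => ?_
      simp only [runY, ms, Fin.cons_zero, Fin.cons_succ]
      rw [show t + 1 + m = t + (m + 1) by ring]
      rfl
    · have h1 := measurable_runY (Ω := Unit) (fun _ => step)
        (fun t st => (hstep t st).comp measurable_snd) (m + 1) t
      have h2 : Measurable fun X : Fin (m + 1) → E d => ((), (st, (X, ms X s))) := by
        refine measurable_const.prodMk (measurable_const.prodMk (measurable_id.prodMk ?_))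
        exact measurable_ms.comp (measurable_id.prodMk measurable_const)
      exact (measurable_Vf step hstep g hg n (t + (m + 1))).comp
        ((h1.comp h2).prodMk measurable_const)

end Abstract

end Crest.Agent.R322
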